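import Vale.Agent.P160R.Five.Det

/-!
# Gram determinants of lattices
-/

namespace Vale.Agent.P160R.Five

open Matrix Module

set_option linter.unusedSectionVars false
set_option linter.unusedFintypeInType false
set_option linter.unusedDecidableInType false

variable {ι κ μ : Type} [Fintype ι] [DecidableEq ι] [Fintype κ] [DecidableEq κ] [Fintype μ]
  [DecidableEq μ]

/-- The columns of `A` form a basis of the lattice `U`. -/
def IsBasisMat (A : Matrix ι κ ℤ) (U : Submodule ℤ (ι → ℤ)) : Prop :=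
  Function.Injective A.mulVec ∧ LinearMap.range A.mulVecLin = U

/-- A basis of a lattice as the columns of a matrix. -/
noncomputable def basisMat (U : Submodule ℤ (ι → ℤ)) : Matrix ι (Fin (finrank ℤ U)) ℤ :=
  Matrix.of fun i c => (Module.finBasis ℤ U c).1 i

/-- The Gram determinant of a lattice. -/
noncomputable def gdet (G : Matrix ι ι ℝ) (U : Submodule ℤ (ι → ℤ)) : ℝ :=
  ((toR (basisMat U))ᵀ * G * toR (basisMat U)).det

lemma basisMat_mulVec (U : Submodule ℤ (ι → ℤ)) (a : Fin (finrank ℤ U) → ℤ) :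
    (basisMat U).mulVec a = ((∑ c, a c • Module.finBasis ℤ U c : U) : ι → ℤ) := by
  funext i
  simp only [basisMat, mulVec, dotProduct, Matrix.of_apply, Submodule.coe_sum, SetLike.val_smul,
    Finset.sum_apply, Pi.smul_apply, smul_eq_mul]
  exact Finset.sum_congr rfl fun c _ => mul_comm _ _

lemma isBasisMat_basisMat (U : Submodule ℤ (ι → ℤ)) : IsBasisMat (basisMat U) U := by
  refine ⟨fun a b h => ?_, le_antisymm ?_ fun u hu => ?_⟩
  · rw [basisMat_mulVec, basisMat_mulVec] at h
    have h1 := Subtype.ext h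
    funext c
    have := Fintype.linearIndependent_iff.1 (Module.finBasis ℤ U).linearIndependent
      (a - b) (by simp only [Pi.sub_apply, sub_smul, Finset.sum_sub_distrib, h1, sub_self]) c
    simpa [sub_eq_zero] using this
  · rintro _ ⟨a, rfl⟩
    rw [mulVecLin_apply, basisMat_mulVec]
    exact SetLike.coe_mem _
  · refine ⟨fun c => (Module.finBasis ℤ U).repr ⟨u, hu⟩ c, ?_⟩
    rw [mulVecLin_apply, basisMat_mulVec, Module.Basis.sum_repr]

lemma toQ_injective {A : Matrix ι κ ℤ} (h : Function.Injective A.mulVec) :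
    Function.Injective (toQ A).mulVec := by
  rw [mulVec_injective_iff]
  refine (LinearIndependent.iff_fractionRing ℤ ℚ).1 ?_
  let castL : (ι → ℤ) →ₗ[ℤ] (ι → ℚ) :=
    { toFun := fun v i => (v i : ℚ)
      map_add' := fun a b => by funext i; simp
      map_smul' := fun a b => by funext i; simp }
  exact (mulVec_injective_iff.1 h).map' castL (LinearMap.ker_eq_bot.2 fun a b hab =>
    funext fun i => Int.cast_injective (congrFun hab i))

lemma toR_injective {A : Matrix ι κ ℤ} (h : Function.Injective A.mulVec) :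
    Function.Injective (toR A).mulVec := toR_mulVec_injective _ (toQ_injective h)

lemma IsBasisMat.card_eq {A : Matrix ι κ ℤ} {U : Submodule ℤ (ι → ℤ)} (h : IsBasisMat A U) :
    Fintype.card κ = finrank ℤ U := by
  rw [← h.2, LinearMap.finrank_range_of_inj (by exact h.1), finrank_fintype_fun_eq_card]

lemma IsBasisMat.mem {A : Matrix ι κ ℤ} {U : Submodule ℤ (ι → ℤ)} (h : IsBasisMat A U)
    (a : κ → ℤ) : A.mulVec a ∈ U := h.2 ▸ ⟨a, rfl⟩

/-- Columns in a lattice are integral combinations of a basis. -/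
lemma IsBasisMat.exists_coeff {A : Matrix ι κ ℤ} {U : Submodule ℤ (ι → ℤ)} (h : IsBasisMat A U)
    (B : Matrix ι μ ℤ) (hB : ∀ c, B.col c ∈ U) : ∃ C : Matrix κ μ ℤ, B = A * C := by
  have : ∀ c, ∃ a, A.mulVec a = B.col c := fun c => by
    have := hB c; rw [← h.2] at this; exact this
  choose a ha using this
  exact ⟨Matrix.of fun l c => a c l, Matrix.ext fun i c => (congrFun (ha c) i).symm⟩

lemma gdet_eq (G : Matrix ι ι ℝ) {A : Matrix ι κ ℤ} {U : Submodule ℤ (ι → ℤ)}
    (h : IsBasisMat A U) : gdet G U = ((toR A)ᵀ * G * toR A).det := by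
  set Z := basisMat U
  have hZ := isBasisMat_basisMat U
  let e : κ ≃ Fin (finrank ℤ U) := Fintype.equivFinOfCardEq h.card_eq
  have hA' : ∀ c, (A.submatrix id e.symm).col c ∈ U := fun c => by
    convert h.mem (Pi.single (e.symm c) 1) using 1
    funext i; simp
  have hA'' : ∀ c, Z.col c ∈ U := fun c => by
    convert hZ.mem (Pi.single c 1) using 1
    funext i; simp [Z]
  obtain ⟨C, hC⟩ := hZ.exists_coeff _ hA'
  obtain ⟨C', hC'⟩ := h.exists_coeff Z hA''
  have hZA : Z = A.submatrix id e.symm * C'.submatrix e.symm id := by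
    rw [submatrix_mul_equiv, ← hC', submatrix_id_id]
  rw [hC] at hZA
  have h1 : C * C'.submatrix e.symm id = 1 := by
    refine Matrix.ext_iff_mulVec.2 fun v => hZ.1 ?_
    rw [mulVec_mulVec, ← Matrix.mul_assoc, ← hZA, one_mulVec]
  have hd : ((C.det : ℤ) : ℝ) ^ 2 = 1 := by
    have h2 : IsUnit C.det := IsUnit.of_mul_eq_one _ (by rw [← det_mul, h1, det_one])
    rcases Int.isUnit_iff.1 h2 with h3 | h3 <;> simp [h3]
  have e1 : ((toR A)ᵀ * G * toR A).submatrix e.symm e.symm =
      (toR (A.submatrix id e.symm))ᵀ * G * toR (A.submatrix id e.symm) := by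
    ext a b; simp [Matrix.mul_apply, toR]
  rw [← det_submatrix_equiv_self e.symm ((toR A)ᵀ * G * toR A), e1, hC,
    show toR (Z * C) = toR Z * toR C from Matrix.map_mul (f := Int.castRingHom ℝ), transpose_mul]
  simp only [Matrix.mul_assoc]
  rw [det_mul, ← Matrix.mul_assoc G, ← Matrix.mul_assoc (toR Z)ᵀ, det_mul, det_transpose,
    show (toR C).det = ((C.det : ℤ) : ℝ) from ((Int.castRingHom ℝ).map_det C).symm, gdet]
  simp only [Matrix.mul_assoc]
  linear_combination -((toR Z)ᵀ * (G * toR Z)).det * hd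

lemma gdet_pos {G : Matrix ι ι ℝ} (hG : G.PosDef) (U : Submodule ℤ (ι → ℤ)) : 0 < gdet G U :=
  (gram_posDef hG (toR_injective (isBasisMat_basisMat U).1)).det_pos

lemma gdet_one_eq (U : Submodule ℤ (ι → ℤ)) :
    gdet 1 U = ((((basisMat U)ᵀ * basisMat U).det : ℤ) : ℝ) := by
  rw [gdet, Matrix.mul_one, show (toR (basisMat U))ᵀ * toR (basisMat U) =
    ((basisMat U)ᵀ * basisMat U).map (Int.castRingHom ℝ) by rw [Matrix.map_mul]; rfl]
  exact ((Int.castRingHom ℝ).map_det _).symm

lemma exists_nat_gdet (U : Submodule ℤ (ι → ℤ)) : ∃ n : ℕ, 1 ≤ n ∧ gdet 1 U = n := by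
  have h := gdet_pos PosDef.one U
  rw [gdet_one_eq] at h ⊢
  refine ⟨((basisMat U)ᵀ * basisMat U).det.natAbs, ?_, ?_⟩
  · exact Int.natAbs_pos.2 (by intro h0; simp [h0] at h)
  · rw [Nat.cast_natAbs, Int.cast_abs, abs_of_pos h]

lemma one_le_gdet (U : Submodule ℤ (ι → ℤ)) : 1 ≤ gdet 1 U := by
  obtain ⟨n, hn, e⟩ := exists_nat_gdet U
  rw [e]; exact_mod_cast hn

lemma gdet_bot (G : Matrix ι ι ℝ) : gdet G (⊥ : Submodule ℤ (ι → ℤ)) = 1 := by
  rw [gdet_eq G (A := (0 : Matrix ι (Fin 0) ℤ))]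
  · simp
  · refine ⟨fun a b _ => Subsingleton.elim a b, ?_⟩
    rw [eq_bot_iff]
    rintro _ ⟨a, rfl⟩
    simp

/-- Equal rank after a multiple. -/
lemma finrank_eq_of_smul_le {N M : Submodule ℤ (ι → ℤ)} (h : N ≤ M) {c : ℤ} (hc : c ≠ 0)
    (hcM : ∀ x ∈ M, c • x ∈ N) : finrank ℤ N = finrank ℤ M := by
  refine le_antisymm (Submodule.finrank_mono h) ?_
  let f : M →ₗ[ℤ] N := LinearMap.codRestrict N (c • M.subtype) fun x => hcM x x.2
  refine LinearMap.finrank_le_finrank_of_injective (f := f) fun a b hab => Subtype.ext ?_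
  have := congrArg Subtype.val hab
  exact smul_right_injective _ hc this

/-- The Gram determinant of a sublattice of the same rank. -/
lemma gdet_eq_index (G : Matrix ι ι ℝ) {N M : Submodule ℤ (ι → ℤ)} (h : N ≤ M)
    (hr : finrank ℤ N = finrank ℤ M) :
    gdet G N = (N.toAddSubgroup.relIndex M.toAddSubgroup : ℝ) ^ 2 * gdet G M := by
  set Z := basisMat N
  set b₂ := Module.finBasis ℤ M
  set b₁ := (Module.finBasis ℤ N).reindex (finCongr hr)
  set C : Matrix (Fin (finrank ℤ M)) (Fin (finrank ℤ M)) ℤ :=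
    b₂.toMatrix fun i => ⟨(b₁ i).1, h (b₁ i).2⟩
  have hidx : N.toAddSubgroup.relIndex M.toAddSubgroup = C.det.natAbs := by
    rw [AddSubgroup.relIndex_eq_natAbs_det N.toAddSubgroup M.toAddSubgroup (fun x hx => h hx) b₁ b₂]
    erw [Module.Basis.det_apply]
    rfl
  have hN : Z.submatrix id (finCongr hr).symm = basisMat M * C := by
    ext i c
    have h1 := b₂.sum_toMatrix_smul_self (fun i => ⟨(b₁ i).1, h (b₁ i).2⟩) c
    have h2 := congrFun (congrArg Subtype.val h1) i
    simp only [Submodule.coe_sum, SetLike.val_smul, Finset.sum_apply, Pi.smul_apply,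
      smul_eq_mul] at h2
    simp only [Z, Matrix.mul_apply, basisMat, submatrix_apply, Matrix.of_apply, id_eq, C]
    rw [show (Module.finBasis ℤ N ((finCongr hr).symm c)).1 i = (b₁ c).1 i by simp [b₁], ← h2]
    exact Finset.sum_congr rfl fun l _ => mul_comm _ _
  rw [gdet, ← det_submatrix_equiv_self (finCongr hr).symm ((toR Z)ᵀ * G * toR Z)]
  have e1 : ((toR Z)ᵀ * G * toR Z).submatrix (finCongr hr).symm (finCongr hr).symm =
      (toR (Z.submatrix id (finCongr hr).symm))ᵀ * G * toR (Z.submatrix id (finCongr hr).symm) := by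
    ext a b; simp [Matrix.mul_apply, toR]
  rw [e1, hN, show toR (basisMat M * C) = toR (basisMat M) * toR C from
    Matrix.map_mul (f := Int.castRingHom ℝ), transpose_mul]
  simp only [Matrix.mul_assoc]
  rw [det_mul, ← Matrix.mul_assoc G, ← Matrix.mul_assoc (toR (basisMat M))ᵀ, det_mul, det_transpose,
    show (toR C).det = ((C.det : ℤ) : ℝ) from ((Int.castRingHom ℝ).map_det C).symm, gdet, hidx,
    Nat.cast_natAbs, Int.cast_abs, sq_abs]
  simp only [Matrix.mul_assoc]
  ring

lemma IsBasisMat.map {U : Submodule ℤ (ι → ℤ)} {A : Matrix ι κ ℤ} (hA : IsBasisMat A U)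
    (F : Matrix μ ι ℤ) (hF : ∀ u ∈ U, F.mulVec u = 0 → u = 0) :
    IsBasisMat (F * A) (U.map F.mulVecLin) := by
  refine ⟨fun a b h => hA.1 ?_, ?_⟩
  · refine sub_eq_zero.1 (hF _ (U.sub_mem (hA.mem a) (hA.mem b)) ?_)
    rw [mulVec_sub, mulVec_mulVec, mulVec_mulVec, h, sub_self]
  · rw [mulVecLin_mul, LinearMap.range_comp, hA.2]

lemma gdet_map (H : Matrix μ μ ℝ) (U : Submodule ℤ (ι → ℤ)) (F : Matrix μ ι ℤ)
    (hF : ∀ u ∈ U, F.mulVec u = 0 → u = 0) :
    gdet H (U.map F.mulVecLin) = gdet ((toR F)ᵀ * H * toR F) U := by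
  rw [gdet_eq H ((isBasisMat_basisMat U).map F hF), gdet,
    show toR (F * basisMat U) = toR F * toR (basisMat U) from
      Matrix.map_mul (f := Int.castRingHom ℝ), transpose_mul]
  simp only [Matrix.mul_assoc]

lemma gdet_smul_form (G : Matrix ι ι ℝ) (c : ℝ) (U : Submodule ℤ (ι → ℤ)) :
    gdet (c • G) U = c ^ finrank ℤ U * gdet G U := by
  rw [gdet, gdet, Matrix.mul_smul, Matrix.smul_mul, det_smul, Fintype.card_fin]

end Vale.Agent.P160R.Five
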