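import Vale.Agent.P160R.Five.Defs
import Vale.Agent.P160R.Atom

/-!
# Some block carries no dense annihilating sublattice
-/

namespace Vale.Agent.P160R.Five

open Matrix Module Finset
open scoped Classical

variable {ι : Type} [Fintype ι] [DecidableEq ι]

/-- Independent columns in an annihilator, completed by columns of `B`, bound the primes. -/
lemma two_sum_log_le {B : Matrix ι ι ℤ} (hB : IsSign B) (hdet : B.det ≠ 0) (T : Finset ℕ)
    (w : ℕ → ι → ℤ)
    (hT : ∀ p ∈ T, p.Prime ∧ (∃ i, ¬ (p : ℤ) ∣ w p i) ∧ ∀ i, (p : ℤ) ∣ B.mulVec (w p) i)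
    {r : ℕ} (U : Matrix ι (Fin r) ℤ) (hU : Function.Injective (toQ U).mulVec)
    (hUT : ∀ c p, p ∈ T → (p : ℤ) ∣ (fun i => U i c) ⬝ᵥ w p) :
    ∃ j : ℕ, r + j = Fintype.card ι ∧
      2 * ∑ p ∈ T, Real.log (p : ℝ) ≤
        Real.log ((P160R.toR U)ᵀ * P160R.toR U).det + j * Real.log (Fintype.card ι) := by
  obtain ⟨j, s, hrj, hinj⟩ := exists_completion U B hdet hU
  refine ⟨j, hrj, ?_⟩
  set m := Fintype.card ι with hmdef
  set X := fromCols U (B.submatrix id s) with hX
  have e : ι ≃ Fin r ⊕ Fin j := Fintype.equivOfCardEq (by simp [hrj, hmdef])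
  set X' := X.submatrix id e with hX'
  have hXR := toR_mulVec_injective X hinj
  have hposX : 0 < ((P160R.toR X)ᵀ * P160R.toR X).det := by
    have h1 := PosDef.conjTranspose_mul_self (P160R.toR X) hXR
    rw [conjTranspose_eq_transpose_of_trivial] at h1
    exact h1.det_pos
  have hposU : 0 < ((P160R.toR U)ᵀ * P160R.toR U).det := by
    have h1 := PosDef.conjTranspose_mul_self (P160R.toR U) (toR_mulVec_injective U hU)
    rw [conjTranspose_eq_transpose_of_trivial] at h1
    exact h1.det_pos
  have e1 : ((P160R.toR X)ᵀ * P160R.toR X).submatrix e e = (P160R.toR X')ᵀ * P160R.toR X' := by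
    ext a b; simp [Matrix.mul_apply, P160R.toR, hX']
  have e2 : ((P160R.toR X)ᵀ * P160R.toR X).det = ((X'.det : ℤ) : ℝ) ^ 2 := by
    rw [← det_submatrix_equiv_self e, e1, det_mul, det_transpose, pow_two,
      show (P160R.toR X').det = ((X'.det : ℤ) : ℝ) from ((Int.castRingHom ℝ).map_det X').symm]
  have hX0 : X'.det ≠ 0 := fun h => by
    rw [e2, h] at hposX
    simp at hposX
  have hdvd : ∀ p ∈ T, p ∣ X'.det.natAbs := by
    intro p hp
    obtain ⟨hpp, ⟨i₀, hi₀⟩, hker⟩ := hT p hp
    have : Fact p.Prime := ⟨hpp⟩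
    rw [← Int.natCast_dvd, ← ZMod.intCast_zmod_eq_zero_iff_dvd]
    rw [show ((X'.det : ℤ) : ZMod p) = (X'.map (Int.castRingHom (ZMod p))).det from
      (Int.castRingHom (ZMod p)).map_det X']
    refine Matrix.exists_vecMul_eq_zero_iff.1
      ⟨fun i => ((w p i : ℤ) : ZMod p), fun h => hi₀ ?_, ?_⟩
    · exact (ZMod.intCast_zmod_eq_zero_iff_dvd _ _).1 (congrFun h i₀)
    funext c
    have hc : (p : ℤ) ∣ (fun i => X i (e c)) ⬝ᵥ w p := by
      rcases e c with a | a
      · exact hUT a p hp
      · have := hker (s a)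
        convert this using 1
        simp only [hX, mulVec, dotProduct, fromCols_apply_inr, submatrix_apply, id_eq]
        exact Finset.sum_congr rfl fun l _ => by rw [← hB.1.apply l (s a)]
    rw [← ZMod.intCast_zmod_eq_zero_iff_dvd] at hc
    simp only [dotProduct, Int.cast_sum, Int.cast_mul] at hc
    simp only [vecMul, dotProduct, Matrix.map_apply, hX', submatrix_apply, id_eq, Pi.zero_apply,
      eq_intCast]
    rw [← hc]
    exact Finset.sum_congr rfl fun l _ => mul_comm _ _
  have hprod : (∏ p ∈ T, p) ≤ X'.det.natAbs :=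
    Nat.le_of_dvd (Int.natAbs_pos.2 hX0)
      (Finset.prod_primes_dvd _ (fun p hp => (hT p hp).1.prime) hdvd)
  have h1 : ∑ p ∈ T, Real.log (p : ℝ) ≤ Real.log |((X'.det : ℤ) : ℝ)| := by
    rw [← Real.log_prod (fun p hp => Nat.cast_ne_zero.2 (hT p hp).1.ne_zero), ← Nat.cast_prod]
    refine Real.log_le_log ?_ ?_
    · exact_mod_cast Finset.prod_pos fun p hp => (hT p hp).1.pos
    · rw [← Int.cast_abs, Int.abs_eq_natAbs]
      exact_mod_cast hprod
  have h2 : ((X'.det : ℤ) : ℝ) ^ 2 ≤ ((P160R.toR U)ᵀ * P160R.toR U).det * (m : ℝ) ^ j := by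
    rw [← e2, hX, P160R.toR_fromCols]
    have hi := hXR
    rw [hX, P160R.toR_fromCols] at hi
    refine (det_gram_add_cols j (P160R.toR (B.submatrix id s)) (P160R.toR U) hi).trans ?_
    have hcol : ∀ c, ∑ i, P160R.toR (B.submatrix id s) i c ^ 2 = (m : ℝ) := by
      intro c
      rw [hmdef, ← Finset.card_univ, Finset.cast_card]
      refine Finset.sum_congr rfl fun i _ => ?_
      rcases hB.2 i (s c) with h | h <;> simp [P160R.toR, h]
    simp only [hcol, Finset.prod_const, Finset.card_univ, Fintype.card_fin]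
    exact le_rfl
  have h3 : 2 * Real.log |((X'.det : ℤ) : ℝ)| ≤
      Real.log ((P160R.toR U)ᵀ * P160R.toR U).det + j * Real.log (m : ℝ) := by
    rcases Nat.eq_zero_or_pos m with hm0 | hm0
    · have hj : j = 0 := by omega
      subst hj
      rw [pow_zero, mul_one] at h2
      have := Real.log_le_log (by rw [← e2]; exact hposX) h2
      rw [Real.log_pow, ← Real.log_abs, Nat.cast_ofNat] at this
      linarith [show ((0 : ℕ) : ℝ) * Real.log (m : ℝ) = 0 by simp]
    have hm' : (0 : ℝ) < m := by exact_mod_cast hm0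
    have := Real.log_le_log (by rw [← e2]; exact hposX) h2
    rw [Real.log_pow, ← Real.log_abs, Real.log_mul hposU.ne' (by positivity), Real.log_pow,
      Nat.cast_ofNat] at this
    exact this
  linarith

/-- Some block has no annihilating sublattice of small determinant and corank below `c`. -/
theorem exists_good_block {G c : ℕ} {x : ℝ} (part : ι → Fin G) {B : Matrix ι ι ℤ} (hB : IsSign B)
    (hdet : B.det ≠ 0) {T : Finset ℕ} {w : ℕ → ι → ℤ} (hker : KerPrimes T w B) (_hx : 0 ≤ x)
    (hbig : 2 * (G : ℝ) * x + (G : ℝ) * c * Real.log (Fintype.card ι) / 2 <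
      ∑ p ∈ T, Real.log (p : ℝ)) :
    ∃ g : Fin G, ∀ T₃ ⊆ T, ∑ p ∈ T \ T₃, Real.log (p : ℝ) ≤ x →
      ∀ W : Submodule ℤ ((univ.filter fun l => part l = g : Finset ι) → ℤ),
        AnnBlock T₃ w (univ.filter fun l => part l = g) W → Real.log (gdet 1 W) ≤ 2 * x →
          finrank ℤ W + c ≤ (univ.filter fun l => part l = g).card := by
  by_contra hcon
  push Not at hcon
  choose T₃ hT₃ hsum W hann hW hrank using hcon
  let J : Fin G → Finset ι := fun g => univ.filter fun l => part l = g
  let κ : Type := (g : Fin G) × Fin (finrank ℤ (W g))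
  let M : Matrix ι κ ℤ := Matrix.of fun l k =>
    if h : part l = k.1 then basisMat (W k.1) ⟨l, mem_filter.2 ⟨mem_univ _, h⟩⟩ k.2 else 0
  let gram : ∀ g : Fin G, Matrix (Fin (finrank ℤ (W g))) (Fin (finrank ℤ (W g))) ℝ := fun g =>
    (toR (basisMat (W g)))ᵀ * toR (basisMat (W g))
  have hgram : (P160R.toR M)ᵀ * P160R.toR M = blockDiagonal' gram := by
    ext ⟨g, a⟩ ⟨g', b⟩
    rw [blockDiagonal'_apply, Matrix.mul_apply]
    by_cases hg : g = g'
    · subst hg
      rw [dif_pos rfl, cast_eq]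
      simp only [gram, Matrix.mul_apply, transpose_apply]
      rw [← sum_filter_add_sum_filter_not univ (fun l => part l = g)]
      rw [show ∑ l ∈ univ.filter (fun l => ¬ part l = g),
          P160R.toR M l ⟨g, a⟩ * P160R.toR M l ⟨g, b⟩ = 0 from
        sum_eq_zero fun l hl => by
          simp only [mem_filter, mem_univ, true_and] at hl
          simp [P160R.toR, M, hl], add_zero, ← sum_coe_sort (univ.filter fun l => part l = g)]
      refine sum_congr rfl fun l _ => ?_
      have hl : part l.1 = g := (mem_filter.1 l.2).2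
      simp [toR, P160R.toR, M, hl]
    · rw [dif_neg hg]
      refine sum_eq_zero fun l _ => ?_
      simp only [transpose_apply, P160R.toR, Matrix.map_apply, M, Matrix.of_apply]
      by_cases hl : part l = g
      · rw [dif_neg (fun h : part l = g' => hg (hl.symm.trans h)), Int.cast_zero, mul_zero]
      · rw [dif_neg hl, Int.cast_zero, zero_mul]
  have hgpos : ∀ g, 0 < gdet 1 (W g) := fun g => gdet_pos PosDef.one _
  have hgdet : ∀ g, (gram g).det = gdet 1 (W g) := fun g => by
    simp [gram, gdet, Matrix.mul_one]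
  have hdetM : ((P160R.toR M)ᵀ * P160R.toR M).det = ∏ g, gdet 1 (W g) := by
    rw [hgram, (blockTriangular_blockDiagonal' gram).det_fintype]
    refine prod_congr rfl fun g _ => ?_
    rw [← hgdet g, ← det_submatrix_equiv_self (Equiv.sigmaSubtype g).symm]
    congr 1
    ext a b
    simp [toSquareBlock_def, blockDiagonal'_apply_eq, Equiv.sigmaSubtype]
  have hMinj : Function.Injective (toQ M).mulVec := by
    intro u v huv
    by_contra hne
    have hq : ((toQ M)ᵀ * toQ M).det = 0 := Matrix.exists_mulVec_eq_zero_iff.1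
      ⟨u - v, sub_ne_zero.2 hne, by
        rw [← mulVec_mulVec, mulVec_sub, sub_eq_zero.2 huv, mulVec_zero]⟩
    have hz : (Mᵀ * M).det = 0 := by
      have eQ : (toQ M)ᵀ * toQ M = (Mᵀ * M).map (Int.castRingHom ℚ) := by
        rw [Matrix.map_mul]; rfl
      rw [eQ, ← RingHom.mapMatrix_apply, ← RingHom.map_det] at hq
      simpa using hq
    have hr : ((P160R.toR M)ᵀ * P160R.toR M).det = 0 := by
      have eR : (P160R.toR M)ᵀ * P160R.toR M = (Mᵀ * M).map (Int.castRingHom ℝ) := by
        rw [Matrix.map_mul]; rfl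
      rw [eR, ← RingHom.mapMatrix_apply, ← RingHom.map_det, hz, map_zero]
    rw [hdetM] at hr
    exact (prod_pos fun g _ => hgpos g).ne' hr
  set r := Fintype.card κ with hr
  let σ : Fin r ≃ κ := (Fintype.equivFin κ).symm
  set U : Matrix ι (Fin r) ℤ := M.submatrix id σ with hUdef
  have hU : Function.Injective (toQ U).mulVec := by
    rw [mulVec_injective_iff] at hMinj ⊢
    exact hMinj.comp σ σ.injective
  let T' := T.filter fun p => ∀ g, p ∈ T₃ g
  have hUT : ∀ k p, p ∈ T' → (p : ℤ) ∣ (fun i => U i k) ⬝ᵥ w p := by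
    intro k p hp
    have h1 := hann (σ k).1 (fun l => basisMat (W (σ k).1) l (σ k).2)
      ((isBasisMat_basisMat (W (σ k).1)).col_mem (σ k).2) p ((mem_filter.1 hp).2 _)
    convert h1 using 1
    rw [dotProduct, ← sum_filter_add_sum_filter_not univ (fun l => part l = (σ k).1)]
    rw [show ∑ l ∈ univ.filter (fun l => ¬ part l = (σ k).1), U l k * w p l = 0 from
      sum_eq_zero fun l hl => by
        simp only [mem_filter, mem_univ, true_and] at hl
        simp [hUdef, M, hl], add_zero, ← sum_coe_sort (univ.filter fun l => part l = (σ k).1)]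
    refine sum_congr rfl fun l _ => ?_
    have hl : part l.1 = (σ k).1 := (mem_filter.1 l.2).2
    simp [hUdef, M, hl]
  obtain ⟨j, hrj, hlog⟩ := two_sum_log_le hB hdet T' w
    (fun p hp => ⟨(hker p (mem_filter.1 hp).1).1, (hker p (mem_filter.1 hp).1).2.2⟩) U hU hUT
  have hj : j ≤ G * c := by
    have h1 : ∑ g, ((J g).card + 1) ≤ ∑ g, (finrank ℤ (W g) + c) :=
      sum_le_sum fun g _ => hrank g
    have h2 : ∑ g, (J g).card = Fintype.card ι := by
      rw [← card_univ]
      exact (card_eq_sum_card_fiberwise fun l _ => mem_univ (part l)).symm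
    simp only [sum_add_distrib, sum_const, card_univ, Fintype.card_fin, smul_eq_mul, mul_one,
      h2] at h1
    have h3 : r = ∑ g, finrank ℤ (W g) := by simp [hr, κ]
    omega
  have hlogU : Real.log ((P160R.toR U)ᵀ * P160R.toR U).det ≤ 2 * G * x := by
    have eU : (P160R.toR U)ᵀ * P160R.toR U = ((P160R.toR M)ᵀ * P160R.toR M).submatrix σ σ := by
      ext a b; simp [Matrix.mul_apply, P160R.toR, hUdef]
    rw [eU, det_submatrix_equiv_self, hdetM, Real.log_prod fun g _ => (hgpos g).ne']
    refine (sum_le_sum fun g _ => hW g).trans (le_of_eq ?_)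
    rw [sum_const, card_univ, Fintype.card_fin, nsmul_eq_mul]
    ring
  have hlost : ∑ p ∈ T \ T', Real.log (p : ℝ) ≤ G * x := by
    have hsub : T \ T' ⊆ univ.biUnion fun g => T \ T₃ g := by
      intro p hp
      simp only [mem_sdiff, T', mem_filter, not_and, not_forall] at hp
      obtain ⟨hp1, hp2⟩ := hp
      obtain ⟨g, hg⟩ := hp2 hp1
      exact mem_biUnion.2 ⟨g, mem_univ _, mem_sdiff.2 ⟨hp1, hg⟩⟩
    have hnn : ∀ p : ℕ, 0 ≤ Real.log (p : ℝ) := fun p => Real.log_natCast_nonneg p
    refine (sum_le_sum_of_subset_of_nonneg hsub fun p _ _ => hnn p).trans ?_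
    refine (sum_biUnion_le_of_nonneg _ fun p _ => hnn p).trans ((sum_le_sum fun g _ => hsum g).trans ?_)
    rw [sum_const, card_univ, Fintype.card_fin, nsmul_eq_mul]
  have hsplit : ∑ p ∈ T \ T', Real.log (p : ℝ) + ∑ p ∈ T', Real.log (p : ℝ) =
      ∑ p ∈ T, Real.log (p : ℝ) := sum_sdiff (filter_subset _ _)
  have hlm : 0 ≤ Real.log (Fintype.card ι : ℝ) := Real.log_natCast_nonneg _
  have hjR : (j : ℝ) ≤ (G : ℝ) * c := by exact_mod_cast hj
  nlinarith [mul_le_mul_of_nonneg_right hjR hlm]
where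
  sum_biUnion_le_of_nonneg {α β : Type} [DecidableEq β] {s : Finset α} {t : α → Finset β}
      (f : β → ℝ) (hf : ∀ b, b ∈ s.biUnion t → 0 ≤ f b) :
      ∑ b ∈ s.biUnion t, f b ≤ ∑ a ∈ s, ∑ b ∈ t a, f b := by
    classical
    induction s using Finset.induction_on with
    | empty => simp
    | @insert a s ha ih =>
      rw [biUnion_insert, sum_insert ha] at *
      have h1 := sum_union_inter (s₁ := t a) (s₂ := s.biUnion t) (f := f)
      have h2 : 0 ≤ ∑ b ∈ t a ∩ s.biUnion t, f b :=
        sum_nonneg fun b hb => hf b (mem_union_left _ (mem_inter.1 hb).1)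
      have h3 := ih fun b hb => hf b (mem_union_right _ hb)
      linarith

end Vale.Agent.P160R.Five
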