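import Vale.Agent.P160R.Five.Claim.Semi

/-!
# A dense row lattice gives a dense annihilating sublattice
-/

namespace Vale.Agent.P160R.Five

open Matrix Module Finset
open scoped Classical

set_option linter.unusedSectionVars false
set_option linter.unusedFintypeInType false
set_option linter.unusedDecidableInType false

variable {ι : Type} [Fintype ι] [DecidableEq ι]

lemma rowForm_eq (L : ℕ) (B : Matrix ι ι ℤ) (Λ : Submodule ℤ (ι → ℤ)) (J E : Finset ι) (k : ℕ)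
    (z : J → ℝ) (N : Fin (finrank ℤ (minLat (4 * L) B Λ E)) → ℝ) :
    Sum.elim z N ⬝ᵥ rowForm L B Λ J E k *ᵥ Sum.elim z N =
      z ⬝ᵥ z + ((Fintype.card ι : ℝ) ^ (3 * L) * (k : ℝ) ^ 2)⁻¹ *
        (N ⬝ᵥ (toR ((basisMat (minLat (4 * L) B Λ E))ᵀ * basisMat (minLat (4 * L) B Λ E)))⁻¹ *ᵥ N) := by
  rw [rowForm, fromBlocks_mulVec]
  simp only [Sum.elim_comp_inl, Sum.elim_comp_inr, one_mulVec, zero_mulVec, add_zero, zero_add,
    smul_mulVec, sumElim_dotProduct_sumElim, dotProduct_smul, smul_eq_mul]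

lemma rowForm_posDef (L : ℕ) (B : Matrix ι ι ℤ) (Λ : Submodule ℤ (ι → ℤ)) (J E : Finset ι)
    {k : ℕ} (hk : 1 ≤ k) (hm : 1 ≤ Fintype.card ι) : (rowForm L B Λ J E k).PosDef := by
  have hG := gramR_posDef (isBasisMat_basisMat (minLat (4 * L) B Λ E)).1
  have hc : 0 < ((Fintype.card ι : ℝ) ^ (3 * L) * (k : ℝ) ^ 2)⁻¹ := by
    have h1 : (0 : ℝ) < k := by exact_mod_cast hk
    have h2 : (0 : ℝ) < Fintype.card ι := by exact_mod_cast hm
    positivity
  refine .of_dotProduct_mulVec_pos ?_ fun x hx => ?_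
  · rw [rowForm]
    refine IsHermitian.fromBlocks isHermitian_one (by simp) ?_
    exact IsHermitian.smul hG.inv.1 (by simp [IsSelfAdjoint])
  · rw [star_trivial, ← Sum.elim_comp_inl_inr x, rowForm_eq]
    by_cases hz : x ∘ Sum.inl = 0
    · have hN : x ∘ Sum.inr ≠ 0 := fun h => hx (funext fun t => by
        rcases t with t | t
        · exact congrFun hz t
        · exact congrFun h t)
      rw [hz, zero_dotProduct, zero_add]
      exact mul_pos hc (by simpa using hG.inv.dotProduct_mulVec_pos hN)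
    · refine add_pos_of_pos_of_nonneg ?_ (mul_nonneg hc.le (by
        simpa using hG.inv.posSemidef.dotProduct_mulVec_nonneg (x ∘ Sum.inr)))
      exact lt_of_le_of_ne (sum_nonneg fun i _ => mul_self_nonneg _)
        fun h => hz (dotProduct_self_eq_zero.1 h.symm)

lemma blockProj_mulVec {J : Finset ι} {s : ℕ} (w : (J ⊕ Fin s) → ℤ) :
    blockProj J s *ᵥ w = w ∘ Sum.inl := by
  rw [blockProj, fromCols_mulVec, one_mulVec, zero_mulVec, add_zero]

lemma blockProj_le (L : ℕ) (B : Matrix ι ι ℤ) (Λ : Submodule ℤ (ι → ℤ)) (J E : Finset ι)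
    (k : ℕ) (x : (J ⊕ Fin (finrank ℤ (minLat (4 * L) B Λ E))) → ℝ) :
    (toR (blockProj J (finrank ℤ (minLat (4 * L) B Λ E))) *ᵥ x) ⬝ᵥ (1 : Matrix J J ℝ) *ᵥ
      (toR (blockProj J (finrank ℤ (minLat (4 * L) B Λ E))) *ᵥ x) ≤
    1 * (x ⬝ᵥ rowForm L B Λ J E k *ᵥ x) := by
  have hG := gramR_posDef (isBasisMat_basisMat (minLat (4 * L) B Λ E)).1
  have e : toR (blockProj J (finrank ℤ (minLat (4 * L) B Λ E))) *ᵥ x = x ∘ Sum.inl := by
    rw [blockProj, toR_fromCols, fromCols_mulVec]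
    simp [toR]
  rw [one_mulVec, e, one_mul]
  conv_rhs => rw [← Sum.elim_comp_inl_inr x, rowForm_eq]
  exact le_add_of_nonneg_right (mul_nonneg (by positivity)
    (by simpa using hG.inv.posSemidef.dotProduct_mulVec_nonneg (x ∘ Sum.inr)))

/-- A sublattice with vanishing block part has determinant at least one. -/
lemma one_le_gdet_pure {L : ℕ} (hm : 2 ≤ Fintype.card ι) (B : Matrix ι ι ℤ)
    (Λ : Submodule ℤ (ι → ℤ)) (J E : Finset ι) {k : ℕ} (hk : 1 ≤ k)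
    (hkL : (k : ℝ) < (Fintype.card ι : ℝ) ^ L)
    (P : Submodule ℤ ((J ⊕ Fin (finrank ℤ (minLat (4 * L) B Λ E))) → ℤ))
    (hP : P ≤ rowLat L B Λ J E k)
    (hP0 : ∀ w ∈ P, w ∘ Sum.inl = 0) : 1 ≤ gdet (rowForm L B Λ J E k) P := by
  set m := Fintype.card ι
  set Sg := basisMat (minLat (4 * L) B Λ E) with hSg
  have hSb := isBasisMat_basisMat (minLat (4 * L) B Λ E)
  set GS := Sgᵀ * Sg with hGS
  have hGSpd : (toR GS).PosDef := gramR_posDef hSb.1
  set c := ((m : ℝ) ^ (3 * L) * (k : ℝ) ^ 2)⁻¹ with hc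
  have hZ := isBasisMat_basisMat P
  set r := finrank ℤ P
  set Np : Matrix (Fin r) (Fin (finrank ℤ (minLat (4 * L) B Λ E))) ℤ :=
    Matrix.of fun b a => basisMat P (Sum.inr a) b with hNp
  have hrows : basisMat P = fromRows 0 Npᵀ := by
    ext (t | t) b
    · exact congrFun (hP0 _ (hZ.col_mem b)) t
    · rfl
  have hNinj : Function.Injective Npᵀ.mulVec := fun a b h => hZ.1 (by
    rw [hrows, fromRows_mulVec, fromRows_mulVec, h]; simp)
  have hg : gdet (rowForm L B Λ J E k) P =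
      c ^ r * (toR Np * (toR GS)⁻¹ * (toR Np)ᵀ).det := by
    rw [gdet, hrows, rowForm]
    have e : toR (fromRows (0 : Matrix J (Fin r) ℤ) Npᵀ) =
        fromRows (0 : Matrix J (Fin r) ℝ) (toR Np)ᵀ := by
      ext (t | t) b <;> simp [toR]
    rw [e, transpose_fromRows, transpose_zero, fromCols_mul_fromBlocks, fromCols_mul_fromRows]
    simp only [Matrix.zero_mul, Matrix.mul_zero, add_zero, zero_add, transpose_transpose]
    rw [Matrix.mul_smul, Matrix.smul_mul, det_smul, Fintype.card_fin]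
  have hdual := gdet_dual GS hGSpd Np (toQ_injective hNinj)
  -- the common kernel still contains the image of `Λ`
  set A := mapL Sg (kerL Np) with hA
  have hSinj : ∀ u ∈ kerL Np, Sg.mulVec u = 0 → u = 0 := fun u _ h =>
    hSb.1 (h.trans (mulVec_zero _).symm)
  have hA0 : imgL B Λ E ≤ A := by
    rintro _ ⟨x, hx, rfl⟩
    have hxS : (rowMat B E).mulVec x ∈ (minLat (4 * L) B Λ E) := (minLat_spec (4 * L) B Λ E).1 ⟨x, hx, rfl⟩
    rw [← hSb.2] at hxS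
    obtain ⟨a, ha⟩ := hxS
    refine ⟨a, funext fun b => ?_, ha⟩
    have h := hP (hZ.col_mem b) x hx a ha
    have h0 := hP0 _ (hZ.col_mem b)
    rw [h0, zero_dotProduct, mul_zero] at h
    exact h
  have hrA : finrank ℤ A + r = finrank ℤ (minLat (4 * L) B Λ E) := by
    rw [hA, finrank_mapL_of_inj hSinj, finrank_kerL Np (toQ_injective hNinj), Fintype.card_fin]
  have hgA : gdet 1 A = gdet (toR GS) (kerL Np) := by
    rw [hA, mapL, gdet_map 1 _ _ hSinj, Matrix.mul_one, ← toR_gram]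
  have hmin := (minLat_spec (4 * L) B Λ E).2 A hA0
  simp only [height] at hmin
  rw [← hrA, mul_add, pow_add, mul_assoc, hgA, gdet_one_basisMat, ← hSg, ← hGS] at hmin
  have hm0 : (0 : ℝ) < m := by exact_mod_cast (show 0 < m by omega)
  have h1 := (le_of_mul_le_mul_left hmin (by positivity)).trans hdual
  have hGpos := hGSpd.det_pos
  have h2 : (m : ℝ) ^ (2 * (4 * L) * r) ≤ (toR Np * (toR GS)⁻¹ * (toR Np)ᵀ).det :=
    le_of_mul_le_mul_right h1 hGpos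
  rw [hg]
  have hk0 : (0 : ℝ) < k := by exact_mod_cast hk
  have hc1 : 1 ≤ c * (m : ℝ) ^ (2 * (4 * L)) := by
    rw [hc, inv_mul_eq_div, le_div_iff₀ (by positivity), one_mul]
    calc (m : ℝ) ^ (3 * L) * (k : ℝ) ^ 2 ≤ (m : ℝ) ^ (3 * L) * ((m : ℝ) ^ L) ^ 2 :=
          mul_le_mul_of_nonneg_left (pow_le_pow_left₀ hk0.le hkL.le 2) (by positivity)
      _ = (m : ℝ) ^ (5 * L) := by rw [← pow_mul, ← pow_add]; ring_nf
      _ ≤ _ := pow_le_pow_right₀ (by exact_mod_cast (show 1 ≤ m by omega)) (by omega)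
  calc (1 : ℝ) ≤ (c * (m : ℝ) ^ (2 * (4 * L))) ^ r := one_le_pow₀ hc1
    _ = c ^ r * (m : ℝ) ^ (2 * (4 * L) * r) := by rw [mul_pow, ← pow_mul]
    _ ≤ _ := mul_le_mul_of_nonneg_left h2 (by rw [hc]; positivity)

/-- The map measuring `ψ ∘ B_E - k z` on a lattice `S₃`. -/
def rowMap {J : Finset ι} {n s : ℕ} (k : ℕ) (S₃ : Matrix ι (Fin n) ℤ) (C : Matrix (Fin s) (Fin n) ℤ) :
    Matrix (Fin n) (J ⊕ Fin s) ℤ :=
  fromCols ((k : ℤ) • (S₃.submatrix Subtype.val id)ᵀ) (-Cᵀ)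

lemma rowMap_dot {J : Finset ι} {n s : ℕ} (k : ℕ) (S₃ : Matrix ι (Fin n) ℤ)
    (C : Matrix (Fin s) (Fin n) ℤ) (w : (J ⊕ Fin s) → ℤ) (a : Fin n → ℤ) :
    (rowMap k S₃ C *ᵥ w) ⬝ᵥ a =
      (k : ℤ) * ((w ∘ Sum.inl) ⬝ᵥ fun l : J => (S₃ *ᵥ a) l) - (w ∘ Sum.inr) ⬝ᵥ (C *ᵥ a) := by
  rw [rowMap, fromCols_mulVec, smul_mulVec, neg_mulVec, add_dotProduct, neg_dotProduct,
    smul_dotProduct, mulVec_transpose, mulVec_transpose, ← dotProduct_mulVec,
    ← dotProduct_mulVec, smul_eq_mul, sub_eq_add_neg]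
  rfl

/-- On the row lattice the map kills the coordinates of `Λ`. -/
lemma rowMap_rank {L : ℕ} {B : Matrix ι ι ℤ} {Λ : Submodule ℤ (ι → ℤ)} {J E : Finset ι} {k : ℕ}
    {U : Submodule ℤ ((J ⊕ Fin (finrank ℤ (minLat (4 * L) B Λ E))) → ℤ)}
    (hU : U ≤ rowLat L B Λ J E k) {n : ℕ} {S₃ : Matrix ι (Fin n) ℤ}
    {C : Matrix (Fin (finrank ℤ (minLat (4 * L) B Λ E))) (Fin n) ℤ}
    (hC : rowMat B E * S₃ = basisMat (minLat (4 * L) B Λ E) * C)
    {K : Matrix (Fin n) (Fin (finrank ℤ Λ)) ℤ} (hK : basisMat Λ = S₃ * K) :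
    finrank ℤ (mapL (rowMap (J := J) k S₃ C) U) + finrank ℤ Λ ≤ n := by
  have hKinj : Function.Injective K.mulVec := fun a b h => (isBasisMat_basisMat Λ).1 (by
    rw [hK, ← mulVec_mulVec, ← mulVec_mulVec, h])
  have hle : mapL (rowMap (J := J) k S₃ C) U ≤ kerL Kᵀ := by
    rintro _ ⟨w, hw, rfl⟩
    rw [mem_kerL, mulVecLin_apply]
    funext b
    have hb : S₃ *ᵥ K.col b = (basisMat Λ).col b := by rw [hK]; rfl
    have h := hU hw _ ((isBasisMat_basisMat Λ).col_mem b) (C *ᵥ K.col b) (by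
      rw [mulVec_mulVec, ← hC, ← mulVec_mulVec, hb])
    have h2 := rowMap_dot k S₃ C w (K.col b)
    rw [hb, ← h, sub_self] at h2
    refine Eq.trans ?_ h2
    rw [dotProduct_comm]
    rfl
  have h1 := Submodule.finrank_mono hle
  have h2 := finrank_kerL Kᵀ (by rw [transpose_transpose]; exact toQ_injective hKinj)
  rw [Fintype.card_fin] at h2
  omega

/-- The map is bounded in the row form. -/
lemma rowMap_le {L : ℕ} {B : Matrix ι ι ℤ} (hB : IsSign B) (hm : 2 ≤ Fintype.card ι)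
    (Λ : Submodule ℤ (ι → ℤ)) (J E : Finset ι) {k : ℕ} (hk : 1 ≤ k) {n : ℕ}
    {S₃ : Matrix ι (Fin n) ℤ} (h3 : Function.Injective S₃.mulVec)
    {C : Matrix (Fin (finrank ℤ (minLat (4 * L) B Λ E))) (Fin n) ℤ}
    (hC : rowMat B E * S₃ = basisMat (minLat (4 * L) B Λ E) * C)
    (x : (J ⊕ Fin (finrank ℤ (minLat (4 * L) B Λ E))) → ℝ) :
    (toR (rowMap (J := J) k S₃ C) *ᵥ x) ⬝ᵥ (toR (S₃ᵀ * S₃))⁻¹ *ᵥ (toR (rowMap (J := J) k S₃ C) *ᵥ x) ≤
      2 * (Fintype.card ι : ℝ) ^ (3 * L + 2) * (k : ℝ) ^ 2 * (x ⬝ᵥ rowForm L B Λ J E k *ᵥ x) := by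
  set m := Fintype.card ι with hmdef
  set F := rowMat B E
  set Sg := basisMat (minLat (4 * L) B Λ E)
  set GS := Sgᵀ * Sg
  have hGSpd : (toR GS).PosDef := gramR_posDef (isBasisMat_basisMat _).1
  set β := 2 * (m : ℝ) ^ (3 * L + 2) * (k : ℝ) ^ 2 with hβ
  have hm2 : (2 : ℝ) ≤ m := by exact_mod_cast hm
  have hm1 : (1 : ℝ) ≤ m := by linarith
  have hk1 : (1 : ℝ) ≤ k := by exact_mod_cast hk
  set z := x ∘ Sum.inl with hz
  set N := x ∘ Sum.inr with hN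
  set ψ := toR Sg *ᵥ ((toR GS)⁻¹ *ᵥ N) with hψ
  set y : ι → ℝ := (k : ℝ) • (toR ((1 : Matrix ι ι ℤ).submatrix id (Subtype.val : J → ι)) *ᵥ z) -
    (toR F)ᵀ *ᵥ ψ with hy
  have hPy : toR (rowMap (J := J) k S₃ C) *ᵥ x = (toR S₃)ᵀ *ᵥ y := by
    have e1 : (toR S₃)ᵀ *ᵥ (toR ((1 : Matrix ι ι ℤ).submatrix id (Subtype.val : J → ι)) *ᵥ z) =
        (toR (S₃.submatrix (Subtype.val : J → ι) id))ᵀ *ᵥ z := by
      rw [mulVec_mulVec]
      congr 1
      ext b l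
      simp [toR, Matrix.mul_apply, Matrix.one_apply]
    have e2 : (toR S₃)ᵀ *ᵥ ((toR F)ᵀ *ᵥ ψ) = (toR C)ᵀ *ᵥ N := by
      rw [hψ, mulVec_mulVec, mulVec_mulVec, mulVec_mulVec, ← transpose_mul, ← toR_mul, hC,
        toR_mul, transpose_mul, Matrix.mul_assoc (toR C)ᵀ, ← toR_gram, Matrix.mul_assoc,
        mul_nonsing_inv _ hGSpd.det_pos.ne'.isUnit, Matrix.mul_one]
    rw [hy, mulVec_sub, mulVec_smul, e1, e2, rowMap, toR_fromCols, fromCols_mulVec, sub_eq_add_neg]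
    congr 1
    · rw [← smul_mulVec]
      congr 1
      ext b l; simp [toR]
    · rw [← neg_mulVec]
      congr 1
      ext b l; simp [toR]
  rw [hPy]
  refine (proj_le h3 y).trans ?_
  have hzz : (toR ((1 : Matrix ι ι ℤ).submatrix id (Subtype.val : J → ι)) *ᵥ z) ⬝ᵥ
      (toR ((1 : Matrix ι ι ℤ).submatrix id (Subtype.val : J → ι)) *ᵥ z) = z ⬝ᵥ z := by
    rw [dotProduct_mulVec, ← mulVec_transpose, mulVec_mulVec]
    rw [show (toR ((1 : Matrix ι ι ℤ).submatrix id (Subtype.val : J → ι)))ᵀ *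
      toR ((1 : Matrix ι ι ℤ).submatrix id (Subtype.val : J → ι)) = 1 by
        ext a b
        simp [toR, Matrix.mul_apply, Matrix.one_apply, eq_comm], one_mulVec]
  have hFψ := rowMat_transpose_norm hB E ψ
  rw [vecMul_sq_le Sg N hGSpd] at hFψ
  conv_rhs => rw [← Sum.elim_comp_inl_inr x, rowForm_eq]
  set a := (k : ℝ) • (toR ((1 : Matrix ι ι ℤ).submatrix id (Subtype.val : J → ι)) *ᵥ z)
  set b := (toR F)ᵀ *ᵥ ψ
  have h4 : 0 ≤ (a + b) ⬝ᵥ (a + b) := sum_nonneg fun i _ => mul_self_nonneg _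
  have h5 : y ⬝ᵥ y ≤ 2 * (a ⬝ᵥ a) + 2 * (b ⬝ᵥ b) := by
    rw [hy, sub_dotProduct, dotProduct_sub, dotProduct_sub, dotProduct_comm b a]
    rw [add_dotProduct, dotProduct_add, dotProduct_add, dotProduct_comm b a] at h4
    linarith
  have h6 : a ⬝ᵥ a = (k : ℝ) ^ 2 * (z ⬝ᵥ z) := by
    rw [smul_dotProduct, dotProduct_smul, hzz, smul_eq_mul, smul_eq_mul]; ring
  have hz0 : 0 ≤ z ⬝ᵥ z := sum_nonneg fun i _ => mul_self_nonneg _
  have h7 : 2 * (k : ℝ) ^ 2 ≤ β := by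
    rw [hβ]
    nlinarith [one_le_pow₀ hm1 (n := 3 * L + 2)]
  have h8 : β * ((m : ℝ) ^ (3 * L) * (k : ℝ) ^ 2)⁻¹ = 2 * (m : ℝ) ^ 2 := by
    rw [hβ, pow_add]; field_simp
  rw [mul_add, ← mul_assoc, ← hmdef, h8]
  have h9 := mul_le_mul_of_nonneg_right h7 hz0
  linarith

/-- A sublattice of the row lattice projects to a block lattice killed by the map. -/
lemma block_part {L : ℕ} {B : Matrix ι ι ℤ} (hB : IsSign B) (hm : 2 ≤ Fintype.card ι)
    (Λ : Submodule ℤ (ι → ℤ)) (J E : Finset ι) {k : ℕ} (hk : 1 ≤ k)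
    (hkL : (k : ℝ) < (Fintype.card ι : ℝ) ^ L)
    {U : Submodule ℤ ((J ⊕ Fin (finrank ℤ (minLat (4 * L) B Λ E))) → ℤ)}
    (hU : U ≤ rowLat L B Λ J E k) (L₃ : Submodule ℤ (ι → ℤ))
    {C : Matrix (Fin (finrank ℤ (minLat (4 * L) B Λ E))) (Fin (finrank ℤ L₃)) ℤ}
    (hC : rowMat B E * basisMat L₃ = basisMat (minLat (4 * L) B Λ E) * C) :
    let P := rowMap (J := J) k (basisMat L₃) C
    let Z := blockProj J (finrank ℤ (minLat (4 * L) B Λ E))
    finrank ℤ (mapL Z U) ≤ finrank ℤ (mapL Z (U ⊓ kerL P)) + finrank ℤ (mapL P U) ∧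
      gdet 1 (mapL Z (U ⊓ kerL P)) ≤
        (2 * (Fintype.card ι : ℝ) ^ (3 * L + 2) * (k : ℝ) ^ 2) ^ finrank ℤ (mapL P U) *
          gdet (rowForm L B Λ J E k) U * gdet 1 L₃ := by
  intro P Z
  set S₃ := basisMat L₃ with hS3
  set G₃ := S₃ᵀ * S₃ with hG3
  have h3b := isBasisMat_basisMat L₃
  have hG3pd : (toR G₃).PosDef := gramR_posDef h3b.1
  set rP := finrank ℤ (mapL P U) with hrP
  set β := 2 * (Fintype.card ι : ℝ) ^ (3 * L + 2) * (k : ℝ) ^ 2 with hβ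
  have hQ := rowForm_posDef L B Λ J E hk (by omega)
  set Q := rowForm L B Λ J E k with hQdef
  set U₀ := U ⊓ kerL P with hU0
  set W := mapL Z U₀ with hW
  have hPle := rowMap_le hB hm Λ J E hk h3b.1 hC
  have h1 := gdet_ker_image hQ (H := (toR G₃)⁻¹) hG3pd.inv P hPle U
  have himg : 1 ≤ gdet (toR G₃)⁻¹ (mapL P U) * (toR G₃).det := by
    have hd := gdet_dual G₃ hG3pd (basisMat (mapL P U))ᵀ
      (by rw [transpose_transpose]; exact toQ_injective (isBasisMat_basisMat _).1)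
    refine (one_le_gdet_int hG3pd _).trans (hd.trans (le_of_eq ?_))
    rw [gdet, show toR (basisMat (mapL P U))ᵀ = (toR (basisMat (mapL P U)))ᵀ from rfl,
      transpose_transpose]
  have hU0' : gdet Q U₀ ≤ β ^ rP * gdet Q U * gdet 1 L₃ := by
    rw [gdet_one_basisMat L₃, ← hS3, ← hG3]
    calc gdet Q U₀ ≤ gdet Q U₀ * (gdet (toR G₃)⁻¹ (mapL P U) * (toR G₃).det) :=
          le_mul_of_one_le_right (gdet_pos hQ _).le himg
      _ ≤ β ^ rP * gdet Q U * (toR G₃).det := by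
          rw [← mul_assoc]
          exact mul_le_mul_of_nonneg_right h1 hG3pd.det_pos.le
  have h2 := gdet_ker_image hQ (H := (1 : Matrix J J ℝ)) PosDef.one Z (β := 1)
    (fun x => blockProj_le L B Λ J E k x) U₀
  rw [one_pow, one_mul] at h2
  have hpure := one_le_gdet_pure hm B Λ J E hk hkL (U₀ ⊓ kerL Z)
    (inf_le_left.trans (inf_le_left.trans hU))
    fun w hw => (blockProj_mulVec w).symm.trans hw.2
  have hWle : gdet 1 W ≤ gdet Q U₀ :=
    (le_mul_of_one_le_left (gdet_pos PosDef.one _).le hpure).trans h2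
  have hrank : finrank ℤ (mapL Z U) ≤ finrank ℤ W + rP := by
    have r1 : finrank ℤ U = finrank ℤ U₀ + rP := finrank_split U P
    have r2 := finrank_split U Z
    have r3 : finrank ℤ U₀ = finrank ℤ (U₀ ⊓ kerL Z : Submodule ℤ _) + finrank ℤ W :=
      finrank_split U₀ Z
    have r4 : finrank ℤ (U₀ ⊓ kerL Z : Submodule ℤ _) ≤ finrank ℤ (U ⊓ kerL Z : Submodule ℤ _) :=
      Submodule.finrank_mono (inf_le_inf_right _ inf_le_left)
    omega
  exact ⟨hrank, hWle.trans hU0'⟩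

/-- A sublattice of small determinant of `rowLat` yields one on the block annihilating `v`. -/
theorem claim_dense {L : ℕ} (hL : 1 ≤ L) {B : Matrix ι ι ℤ} (hB : IsSign B)
    (hm : 2 ≤ Fintype.card ι) {Λ Λ₂ : Submodule ℤ (ι → ℤ)} (hΛ : Λ ≤ Λ₂) {e : ℕ}
    (he : finrank ℤ Λ₂ ≤ finrank ℤ Λ + e) {T : Finset ℕ} {v : ι → ℤ} (hv : v ∈ Λ₂)
    (hT : ∀ p ∈ T, p.Prime ∧ (∃ l, ¬ (p : ℤ) ∣ v l) ∧ ∀ l, (p : ℤ) ∣ B.mulVec v l)
    (J E : Finset ι) {k : ℕ} (hk : 1 ≤ k) (hkL : (k : ℝ) < (Fintype.card ι : ℝ) ^ L) {D : ℝ}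
    (hD : 1 ≤ D) (U : Submodule ℤ ((J ⊕ Fin (finrank ℤ (minLat (4 * L) B Λ E))) → ℤ))
    (hU : U ≤ rowLat L B Λ J E k)
    (hdetU : gdet (rowForm L B Λ J E k) U ≤ 2 * D ^ (4 * Fintype.card ι)) :
    ∃ T₃ ⊆ T, ∃ W : Submodule ℤ (J → ℤ), AnnBlock T₃ (fun _ => v) J W ∧
      finrank ℤ (mapL (blockProj J (finrank ℤ (minLat (4 * L) B Λ E))) U) ≤ finrank ℤ W + e ∧
      Real.log (gdet 1 W) ≤ 1 + 4 * Fintype.card ι * Real.log D +
        40 * L * (e + 1) * Real.log (Fintype.card ι) + 2 * Real.log (gdet 1 Λ₂) ∧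
      ∑ p ∈ T \ T₃, Real.log (p : ℝ) ≤
        40 * L * (e + 1) * Real.log (Fintype.card ι) + 2 * Real.log (gdet 1 Λ₂) := by
  obtain ⟨q, x₀, hq, hη, ⟨s₀, hs₀, hs₀e⟩, hsemi⟩ := semi hL hB hm hΛ he hv hT E
  set m := Fintype.card ι with hmdef
  set M : ℕ := ∏ p ∈ T, p with hMdef
  set L₃ := innerLat (4 * L) B Λ Λ₂ E with hL3
  set η := (q : ℤ) • v + (M : ℤ) • x₀ with hηdef
  set F := rowMat B E with hF
  set Sg := basisMat (minLat (4 * L) B Λ E) with hSg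
  have hSb := isBasisMat_basisMat (minLat (4 * L) B Λ E)
  set GS := Sgᵀ * Sg with hGS
  have hGSpd : (toR GS).PosDef := gramR_posDef hSb.1
  set S₃ := basisMat L₃ with hS3
  have h3b := isBasisMat_basisMat L₃
  set G₃ := S₃ᵀ * S₃ with hG3
  have hG3pd : (toR G₃).PosDef := gramR_posDef h3b.1
  obtain ⟨C, hC⟩ := hSb.exists_coeff (F * S₃) fun b => by
    have h : F.mulVec (S₃.col b) ∈ (minLat (4 * L) B Λ E) := (h3b.col_mem b).2
    exact h
  set P := rowMap (J := J) k S₃ C with hPdef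
  have hcoef : ∀ a, Sg *ᵥ (C *ᵥ a) = F *ᵥ (S₃ *ᵥ a) := fun a => by
    rw [mulVec_mulVec, ← hC, mulVec_mulVec]
  -- the rank of the image of `P`
  have hΛ3 : Λ ≤ L₃ := fun x hx => ⟨hΛ hx, (minLat_spec (4 * L) B Λ E).1 ⟨x, hx, rfl⟩⟩
  obtain ⟨K, hK⟩ := h3b.exists_coeff (basisMat Λ) fun b => hΛ3 ((isBasisMat_basisMat Λ).col_mem b)
  set rP := finrank ℤ (mapL P U) with hrP
  have hrP_le : rP ≤ e := by
    have h1 := rowMap_rank hU hC hK
    have h3 : finrank ℤ L₃ ≤ finrank ℤ Λ₂ := Submodule.finrank_mono inf_le_left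
    rw [← hPdef, ← hrP] at h1
    omega
  obtain ⟨hrank, hWle⟩ := block_part hB hm Λ J E hk hkL hU L₃ hC
  set Z := blockProj J (finrank ℤ (minLat (4 * L) B Λ E)) with hZ
  set W := mapL Z (U ⊓ kerL P) with hW
  have hQ := rowForm_posDef L B Λ J E hk (by omega)
  set Q := rowForm L B Λ J E k with hQdef
  set β := 2 * (m : ℝ) ^ (3 * L + 2) * (k : ℝ) ^ 2 with hβ
  have hm2 : (2 : ℝ) ≤ m := by exact_mod_cast hm
  have hm1 : (1 : ℝ) ≤ m := by linarith
  have hk1 : (1 : ℝ) ≤ k := by exact_mod_cast hk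
  have hβ1 : 1 ≤ β := by
    rw [hβ]
    nlinarith [one_le_pow₀ hm1 (n := 3 * L + 2), one_le_pow₀ hk1 (n := 2)]
  have hβm : β ≤ (m : ℝ) ^ (8 * L) := by
    calc β ≤ (m : ℝ) * (m : ℝ) ^ (3 * L + 2) * ((m : ℝ) ^ L) ^ 2 := by
          rw [hβ]; gcongr
      _ = (m : ℝ) ^ (5 * L + 3) := by rw [← pow_mul, ← pow_succ', ← pow_add]; ring_nf
      _ ≤ _ := pow_le_pow_right₀ hm1 (by omega)
  -- logarithms
  have hlm : 0 ≤ Real.log (m : ℝ) := Real.log_nonneg hm1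
  have hg2 := one_le_gdet Λ₂
  have hg3 := one_le_gdet L₃
  have hq1 : (1 : ℝ) ≤ q := by exact_mod_cast hq
  have hlg2 : 0 ≤ Real.log (gdet 1 Λ₂) := Real.log_nonneg hg2
  have hsl : 2 * Real.log q + Real.log (gdet 1 L₃) ≤
      10 * L * e * Real.log m + Real.log (gdet 1 Λ₂) := by
    have h := Real.log_le_log (by positivity) hsemi
    rw [Real.log_mul (by positivity) (by positivity), Real.log_mul (by positivity) (by positivity),
      Real.log_pow, Real.log_pow] at h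
    push_cast at h ⊢
    linarith
  have hlW : Real.log (gdet 1 W) ≤
      1 + 4 * m * Real.log D + 18 * L * e * Real.log m + Real.log (gdet 1 Λ₂) := by
    have h : gdet 1 W ≤ (m : ℝ) ^ (8 * L * e) * (2 * D ^ (4 * m)) * gdet 1 L₃ := by
      refine hWle.trans ?_
      refine mul_le_mul_of_nonneg_right (mul_le_mul ?_ hdetU (gdet_pos hQ _).le (by positivity))
        (by linarith)
      calc β ^ rP ≤ β ^ e := pow_le_pow_right₀ hβ1 hrP_le
        _ ≤ ((m : ℝ) ^ (8 * L)) ^ e := pow_le_pow_left₀ (by linarith) hβm e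
        _ = _ := (pow_mul _ _ _).symm
    have hl := Real.log_le_log (gdet_pos PosDef.one W) h
    rw [Real.log_mul (by positivity) (by positivity), Real.log_mul (by positivity) (by positivity),
      Real.log_mul (by norm_num) (by positivity), Real.log_pow, Real.log_pow] at hl
    push_cast at hl
    have h2 : Real.log 2 ≤ 1 := by linarith [Real.log_two_lt_d9]
    have h3 : 0 ≤ Real.log (q : ℝ) := Real.log_nonneg hq1
    linarith
  set T₃ := T.filter fun p => ¬ p ∣ k * q with hT3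
  refine ⟨T₃, filter_subset _ _, W, ?_, hrank.trans (Nat.add_le_add_left hrP_le _), ?_, ?_⟩
  · -- annihilation
    rintro _ ⟨w, hw, rfl⟩ p hp
    rw [mulVecLin_apply, blockProj_mulVec]
    obtain ⟨hpT, hpk⟩ := mem_filter.1 hp
    have hη3 : η ∈ L₃ := hη
    rw [← h3b.2] at hη3
    obtain ⟨a, ha⟩ := hη3
    rw [mulVecLin_apply] at ha
    rw [← hSb.2] at hs₀
    obtain ⟨b, hb⟩ := hs₀
    rw [mulVecLin_apply] at hb
    have hCa : C *ᵥ a = (M : ℤ) • b := hSb.1 (by rw [hcoef, ha, mulVec_smul, hb, hs₀e])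
    have h := rowMap_dot k S₃ C w a
    have hw0 : P *ᵥ w = 0 := hw.2
    rw [← hPdef, hw0, zero_dotProduct, ha, hCa, dotProduct_smul, smul_eq_mul] at h
    have hpM : (p : ℤ) ∣ (M : ℤ) := Int.natCast_dvd_natCast.2 (dvd_prod_of_mem _ hpT)
    have e1 : ((w ∘ Sum.inl) ⬝ᵥ fun l : J => η l) =
        (q : ℤ) * ((w ∘ Sum.inl) ⬝ᵥ fun l : J => v l) +
          (M : ℤ) * ((w ∘ Sum.inl) ⬝ᵥ fun l : J => x₀ l) := by
      simp only [hηdef, Pi.add_apply, Pi.smul_apply, smul_eq_mul, dotProduct, mul_add, mul_sum,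
        ← sum_add_distrib]
      exact sum_congr rfl fun l _ => by ring
    rw [e1] at h
    have hdvd : (p : ℤ) ∣ ((k * q : ℕ) : ℤ) * ((w ∘ Sum.inl) ⬝ᵥ fun l : J => v l) := by
      have e : ((k * q : ℕ) : ℤ) * ((w ∘ Sum.inl) ⬝ᵥ fun l : J => v l) =
          (M : ℤ) * ((w ∘ Sum.inr) ⬝ᵥ b - k * ((w ∘ Sum.inl) ⬝ᵥ fun l : J => x₀ l)) := by
        push_cast
        linear_combination -h
      rw [e]
      exact hpM.mul_right _
    refine ((Nat.prime_iff_prime_int.1 (hT p hpT).1).dvd_or_dvd hdvd).resolve_left ?_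
    exact fun hd => hpk (Int.natCast_dvd_natCast.1 hd)
  · linarith [mul_nonneg (mul_nonneg (Nat.cast_nonneg (α := ℝ) L) (Nat.cast_nonneg (α := ℝ) e)) hlm,
      mul_nonneg (Nat.cast_nonneg (α := ℝ) L) hlm]
  · have hkq : 0 < k * q := Nat.mul_pos hk hq
    have hprod : (∏ p ∈ T \ T₃, p) ≤ k * q := by
      refine Nat.le_of_dvd hkq (Finset.prod_primes_dvd _ (fun p hp => ?_) fun p hp => ?_)
      · exact (hT p (mem_sdiff.1 hp).1).1.prime
      · obtain ⟨h1, h2⟩ := mem_sdiff.1 hp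
        by_contra h3
        exact h2 (mem_filter.2 ⟨h1, h3⟩)
    have hl := Real.log_le_log (by
      exact_mod_cast prod_pos fun p hp => (hT p (mem_sdiff.1 hp).1).1.pos)
      (show ((∏ p ∈ T \ T₃, p : ℕ) : ℝ) ≤ ((k * q : ℕ) : ℝ) by exact_mod_cast hprod)
    rw [Nat.cast_prod, Real.log_prod (fun p hp =>
      Nat.cast_ne_zero.2 (hT p (mem_sdiff.1 hp).1).1.ne_zero), Nat.cast_mul,
      Real.log_mul (by positivity) (by positivity)] at hl
    have hlk : Real.log (k : ℝ) ≤ L * Real.log m := by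
      rw [← Real.log_pow]
      exact Real.log_le_log (by positivity) hkL.le
    have h0 : 0 ≤ Real.log (gdet 1 L₃) := Real.log_nonneg hg3
    linarith [mul_nonneg (mul_nonneg (Nat.cast_nonneg (α := ℝ) L) (Nat.cast_nonneg (α := ℝ) e)) hlm,
      mul_nonneg (Nat.cast_nonneg (α := ℝ) L) hlm]

end Vale.Agent.P160R.Five
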