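import Vale.Agent.P160R.Five.Basis

/-!
# Lattices under integral linear maps
-/

namespace Vale.Agent.P160R.Five

open Matrix Module

set_option linter.unusedSectionVars false
set_option linter.unusedFintypeInType false
set_option linter.unusedDecidableInType false

variable {ι κ μ : Type} [Fintype ι] [DecidableEq ι] [Fintype κ] [DecidableEq κ] [Fintype μ]
  [DecidableEq μ]

/-- The kernel of a matrix as a lattice. -/
def kerL (F : Matrix μ ι ℤ) : Submodule ℤ (ι → ℤ) := LinearMap.ker F.mulVecLin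

lemma mem_kerL {F : Matrix μ ι ℤ} {x : ι → ℤ} : x ∈ kerL F ↔ F.mulVec x = 0 := Iff.rfl

/-- The image of a lattice. -/
def mapL (F : Matrix μ ι ℤ) (U : Submodule ℤ (ι → ℤ)) : Submodule ℤ (μ → ℤ) := U.map F.mulVecLin

lemma toR_mul (X : Matrix μ ι ℤ) (Y : Matrix ι κ ℤ) : toR (X * Y) = toR X * toR Y :=
  Matrix.map_mul (f := Int.castRingHom ℝ)

lemma IsBasisMat.col_mem {A : Matrix ι κ ℤ} {U : Submodule ℤ (ι → ℤ)} (h : IsBasisMat A U)
    (c : κ) : A.col c ∈ U := by
  convert h.mem (Pi.single c 1) using 1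
  funext i; simp

/-- Lifts of a basis of the image complete a basis of the kernel part. -/
lemma isBasisMat_fromCols {U : Submodule ℤ (ι → ℤ)} (F : Matrix μ ι ℤ) {n : Matrix ι κ ℤ}
    {q : ℕ} {c : Matrix ι (Fin q) ℤ} (hn : IsBasisMat n (U ⊓ kerL F)) (hc : ∀ a, c.mulVec a ∈ U)
    (hFc : IsBasisMat (F * c) (mapL F U)) : IsBasisMat (fromCols n c) U := by
  have hF0 : ∀ a, F.mulVec (n.mulVec a) = 0 := fun a => (hn.mem a).2
  refine ⟨fun u v h => ?_, ?_⟩
  · rw [← sub_eq_zero, ← mulVec_sub, fromCols_mulVec] at h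
    set w := u - v with hw
    have h1 := congrArg F.mulVec h
    rw [mulVec_add, hF0, zero_add, mulVec_zero, mulVec_mulVec] at h1
    have h2 : w ∘ Sum.inr = 0 := hFc.1 (by rw [h1, mulVec_zero])
    rw [h2, mulVec_zero, add_zero] at h
    have h3 : w ∘ Sum.inl = 0 := hn.1 (by rw [h, mulVec_zero])
    rw [← sub_eq_zero]
    funext t
    rcases t with t | t
    · exact congrFun h3 t
    · exact congrFun h2 t
  · refine le_antisymm ?_ fun u hu => ?_
    · rintro _ ⟨a, rfl⟩
      rw [mulVecLin_apply, fromCols_mulVec]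
      exact U.add_mem (hn.mem _).1 (hc _)
    · have : F.mulVec u ∈ mapL F U := ⟨u, hu, rfl⟩
      rw [← hFc.2] at this
      obtain ⟨b, hb⟩ := this
      rw [mulVecLin_apply, ← mulVec_mulVec] at hb
      have hk : u - c.mulVec b ∈ U ⊓ kerL F :=
        ⟨U.sub_mem hu (hc b), by rw [SetLike.mem_coe, mem_kerL, mulVec_sub, hb, sub_self]⟩
      rw [← hn.2] at hk
      obtain ⟨a, ha⟩ := hk
      refine ⟨Sum.elim a b, ?_⟩
      rw [mulVecLin_apply] at ha ⊢
      rw [fromCols_mulVec_sumElim, ha, sub_add_cancel]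

/-- A basis adapted to a linear map. -/
lemma exists_adapted (U : Submodule ℤ (ι → ℤ)) (F : Matrix μ ι ℤ) :
    ∃ c : Matrix ι (Fin (finrank ℤ (mapL F U))) ℤ, (∀ a, c.mulVec a ∈ U) ∧
      IsBasisMat (F * c) (mapL F U) ∧ IsBasisMat (fromCols (basisMat (U ⊓ kerL F)) c) U := by
  have h : ∀ t, ∃ x ∈ U, F.mulVec x = (basisMat (mapL F U)).col t :=
    fun t => (isBasisMat_basisMat (mapL F U)).col_mem t
  choose x hxU hx using h
  set c : Matrix ι (Fin (finrank ℤ (mapL F U))) ℤ := Matrix.of fun i t => x t i with hc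
  have e : F * c = basisMat (mapL F U) := Matrix.ext fun i t => congrFun (hx t) i
  have hcU : ∀ a, c.mulVec a ∈ U := by
    intro a
    have : c.mulVec a = ∑ t, a t • x t := by
      funext i
      simp [hc, mulVec, dotProduct, mul_comm]
    rw [this]
    exact U.sum_mem fun t _ => U.smul_mem _ (hxU t)
  have hFc : IsBasisMat (F * c) (mapL F U) := e ▸ isBasisMat_basisMat _
  exact ⟨c, hcU, hFc, isBasisMat_fromCols F (isBasisMat_basisMat _) hcU hFc⟩

/-- Rank is additive along a linear map. -/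
lemma finrank_split (U : Submodule ℤ (ι → ℤ)) (F : Matrix μ ι ℤ) :
    finrank ℤ U = finrank ℤ (U ⊓ kerL F : Submodule ℤ (ι → ℤ)) + finrank ℤ (mapL F U) := by
  obtain ⟨c, -, -, h⟩ := exists_adapted U F
  rw [← h.card_eq]
  simp

lemma gdet_fromCols {G : Matrix ι ι ℝ} (hG : G.PosDef) {U : Submodule ℤ (ι → ℤ)}
    {n : Matrix ι κ ℤ} {c : Matrix ι μ ℤ} (h : IsBasisMat (fromCols n c) U) :
    gdet G U = ((toR n)ᵀ * G * toR n).det * (sform G (toR n) (toR c)).det := by
  have hi := toR_injective h.1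
  rw [toR_fromCols] at hi
  rw [gdet_eq G h, toR_fromCols, det_fromCols hG _ _ (injective_inl hi)]

/-- For `Q_H (F x) ≤ β Q_G x`, passing from `U'` to `U` costs at most `β` per dimension. -/
lemma gdet_ratio {G : Matrix ι ι ℝ} (hG : G.PosDef) {H : Matrix μ μ ℝ} (hH : H.PosDef)
    (F : Matrix μ ι ℤ) {β : ℝ}
    (hle : ∀ x : ι → ℝ, (toR F *ᵥ x) ⬝ᵥ H *ᵥ (toR F *ᵥ x) ≤ β * (x ⬝ᵥ G *ᵥ x))
    {U' U : Submodule ℤ (ι → ℤ)} (hUU : U' ≤ U) (hker : U ⊓ kerL F ≤ U') :
    gdet G U' * gdet H (mapL F U) ≤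
      β ^ (finrank ℤ U - finrank ℤ U') * (gdet H (mapL F U') * gdet G U) := by
  obtain ⟨c, hcU, hFc, hbas⟩ := exists_adapted U F
  obtain ⟨c', hcU', hFc', -⟩ := exists_adapted U' F
  set n := basisMat (U ⊓ kerL F)
  have hk : U ⊓ kerL F = U' ⊓ kerL F :=
    le_antisymm (le_inf hker inf_le_right) (inf_le_inf_right _ hUU)
  have hn' : IsBasisMat n (U' ⊓ kerL F) := hk ▸ isBasisMat_basisMat _
  have hbas' := isBasisMat_fromCols F hn' hcU' hFc'
  obtain ⟨C, hC⟩ := hFc.exists_coeff (F * c') fun t =>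
    Submodule.map_mono hUU (hFc'.col_mem t)
  have hCi : Function.Injective C.mulVec := fun a b h => hFc'.1 (by
    simp only [hC, ← mulVec_mulVec] ; rw [h])
  -- the columns `c * C` also complete `n` to a basis of `U'`
  have hcC : ∀ a, (c * C).mulVec a ∈ U' := by
    intro a
    rw [← mulVec_mulVec]
    have h1 : c.mulVec (C.mulVec a) - c'.mulVec a ∈ U ⊓ kerL F :=
      ⟨U.sub_mem (hcU _) (hUU (hcU' a)), by
        rw [SetLike.mem_coe, mem_kerL, mulVec_sub, mulVec_mulVec, mulVec_mulVec, mulVec_mulVec,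
          ← hC, sub_self]⟩
    simpa using U'.add_mem (hker h1) (hcU' a)
  have hbas'' := isBasisMat_fromCols F hn' hcC (by rwa [← Matrix.mul_assoc, ← hC])
  have hi := toR_injective hbas.1
  rw [toR_fromCols] at hi
  set P := sform G (toR n) (toR c) with hP
  set R := (toR (F * c))ᵀ * H * toR (F * c) with hR
  have key := det_ratio_le (sform_posDef hG hi) (gram_posDef hH (toR_injective hFc.1)) (β := β)
    (fun a => by
      obtain ⟨z, hz⟩ := sform_attained hG (toR c) (injective_inl hi) a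
      rw [hz]
      refine le_trans (le_of_eq ?_) (hle _)
      rw [gram_form]
      have : toR F *ᵥ (toR n *ᵥ z + toR c *ᵥ a) = toR (F * c) *ᵥ a := by
        have hF0 : F * n = 0 := Matrix.ext fun i t =>
          congrFun ((isBasisMat_basisMat (U ⊓ kerL F)).col_mem t).2 i
        rw [mulVec_add, mulVec_mulVec, mulVec_mulVec]
        rw [← toR_mul F n, ← toR_mul F c, hF0]
        simp [toR]
      rw [this]) C (toQ_injective hCi)
  have e1 : finrank ℤ U - finrank ℤ U' = finrank ℤ (mapL F U) - finrank ℤ (mapL F U') := by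
    rw [finrank_split U F, finrank_split U' F, hk]; omega
  rw [← sform_mul] at key
  have ecC : toR c * toR C = toR (c * C) := (toR_mul c C).symm
  have eH : gdet H (mapL F U') = ((toR C)ᵀ * R * toR C).det := by
    rw [gdet_eq H (hC ▸ hFc'), hR]
    simp only [toR_mul, transpose_mul, Matrix.mul_assoc]
  rw [gdet_fromCols hG hbas'', gdet_fromCols hG hbas, gdet_eq H hFc, eH, ← ecC, e1, ← hP, ← hR,
    mul_assoc]
  have hpos : 0 ≤ ((toR n)ᵀ * G * toR n).det := (gram_posDef hG (injective_inl hi)).det_pos.le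
  calc ((toR n)ᵀ * G * toR n).det * ((sform G (toR n) (toR c * toR C)).det * R.det)
      ≤ ((toR n)ᵀ * G * toR n).det * _ := mul_le_mul_of_nonneg_left key hpos
    _ = _ := by ring

/-- The kernel part and the image are both controlled. -/
lemma gdet_ker_image {G : Matrix ι ι ℝ} (hG : G.PosDef) {H : Matrix μ μ ℝ} (hH : H.PosDef)
    (F : Matrix μ ι ℤ) {β : ℝ}
    (hle : ∀ x : ι → ℝ, (toR F *ᵥ x) ⬝ᵥ H *ᵥ (toR F *ᵥ x) ≤ β * (x ⬝ᵥ G *ᵥ x))
    (U : Submodule ℤ (ι → ℤ)) :
    gdet G (U ⊓ kerL F) * gdet H (mapL F U) ≤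
      β ^ finrank ℤ (mapL F U) * gdet G U := by
  have h := gdet_ratio hG hH F hle (U' := U ⊓ kerL F) (U := U) inf_le_left le_rfl
  have h0 : mapL F (U ⊓ kerL F) = ⊥ := by
    rw [eq_bot_iff]
    rintro _ ⟨x, hx, rfl⟩
    exact hx.2
  rw [h0, gdet_bot, one_mul] at h
  have e : finrank ℤ U - finrank ℤ (U ⊓ kerL F : Submodule ℤ (ι → ℤ)) = finrank ℤ (mapL F U) := by
    rw [finrank_split U F]; omega
  rwa [e] at h

/-- A matrix whose kernel is the saturation of a lattice. -/
noncomputable def satMat (I : Submodule ℤ (ι → ℤ)) : Matrix ι ι ℤ :=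
  ((basisMat I)ᵀ * basisMat I).det • 1 -
    basisMat I * ((basisMat I)ᵀ * basisMat I).adjugate * (basisMat I)ᵀ

lemma gram_det_ne_zero (I : Submodule ℤ (ι → ℤ)) : ((basisMat I)ᵀ * basisMat I).det ≠ 0 := by
  have h := gdet_pos PosDef.one I
  rw [gdet_one_eq] at h
  intro h0
  simp [h0] at h

lemma le_ker_satMat (I : Submodule ℤ (ι → ℤ)) : I ≤ kerL (satMat I) := by
  intro x hx
  rw [← (isBasisMat_basisMat I).2] at hx
  obtain ⟨a, rfl⟩ := hx
  rw [mem_kerL, satMat, mulVecLin_apply, sub_mulVec, mulVec_mulVec, mulVec_mulVec]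
  simp only [Matrix.smul_mul, Matrix.one_mul, Matrix.mul_assoc, adjugate_mul, Matrix.mul_smul,
    Matrix.mul_one]
  simp

lemma smul_mem_of_ker {I : Submodule ℤ (ι → ℤ)} {x : ι → ℤ} (hx : x ∈ kerL (satMat I)) :
    ((basisMat I)ᵀ * basisMat I).det • x ∈ I := by
  rw [mem_kerL, satMat, sub_mulVec, sub_eq_zero, smul_mulVec, one_mulVec, ← mulVec_mulVec,
    ← mulVec_mulVec] at hx
  rw [hx]
  exact (isBasisMat_basisMat I).mem _

/-- A larger span gives a smaller quotient form. -/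
lemma sform_mono {ν : Type} [Fintype ν] [DecidableEq ν] {G : Matrix ι ι ℝ} (hG : G.PosDef)
    {A : Matrix ι κ ℝ} {A' : Matrix ι ν ℝ} {C : Matrix ι μ ℝ}
    (hA : Function.Injective (fromCols A C).mulVec)
    (hA' : Function.Injective (fromCols A' C).mulVec) (X : Matrix κ ν ℝ) (hX : A' = A * X) :
    (sform G A C).det ≤ (sform G A' C).det := by
  refine det_le_det_of_form_le (sform_posDef hG hA) (sform_posDef hG hA').1 fun a => ?_
  obtain ⟨z, hz⟩ := sform_attained hG C (injective_inl hA') a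
  rw [hz, hX, ← mulVec_mulVec]
  exact sform_le hG C (injective_inl hA) _ a

end Vale.Agent.P160R.Five
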