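import Vale.Agent.P160R.Five.Defs
import Vale.Agent.P160R.Five.Cost.Row
import Vale.Agent.P160R.Five.Cost.Fibres
import Vale.Agent.P160R.Basic
import Vale.Agent.P160R.Atom

/-!
# The cost of a good row
-/

namespace Vale.Agent.P160R.Five

open Matrix Module Finset
open scoped Classical

set_option linter.unusedSectionVars false

variable {ι : Type} [Fintype ι] [DecidableEq ι]

/-- The pairs (row `i`, column in `J`). -/
noncomputable def rowKeys (J : Finset ι) (i : ι) : Finset (Sym2 ι) := J.image fun l => s(i, l)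

lemma card_rowKeys (J : Finset ι) (i : ι) : (rowKeys J i).card = J.card :=
  card_image_of_injective _ fun _ _ h => Sym2.congr_right.1 h

lemma not_mem_rowKeys {J : Finset ι} {i e l : ι} (he : e ∉ J) (hei : e ≠ i) :
    s(e, l) ∉ rowKeys J i := by
  simp only [rowKeys, mem_image, Sym2.eq_iff, not_exists, not_and]
  rintro j hj (⟨h, -⟩ | ⟨-, h⟩)
  · exact hei h.symm
  · exact he (h ▸ hj)

/-- A good cheap row ignores the block signs of the other rows that are not exposed. -/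
lemma goodCheap_invariant {L : ℕ} {D : ℝ} {r₀ : ℕ} {Λ : Submodule ℤ (ι → ℤ)} {J : Finset ι}
    {i i' : ι} (hi : i ∉ J) (hne : i ≠ i') (hnb : i' ∉ before Jᶜ i) {ω ω' : Sym2 ι → Bool}
    (h : ∀ e, e ∉ rowKeys J i' → ω e = ω' e) :
    GoodCheap L D r₀ (symM ℤ ω) Λ J i → GoodCheap L D r₀ (symM ℤ ω') Λ J i := by
  have hrow : rowMat (symM ℤ ω) (before Jᶜ i) = rowMat (symM ℤ ω') (before Jᶜ i) := by
    ext e l
    have he : (e : ι) ∉ J := mem_compl.1 (mem_filter.1 e.2).1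
    simp only [rowMat, submatrix_apply, id_eq, symM, Matrix.of_apply]
    rw [h _ (not_mem_rowKeys he fun hh => hnb (hh ▸ e.2))]
  have hBi : symM ℤ ω i = symM ℤ ω' i := by
    funext l
    simp only [symM, Matrix.of_apply]
    rw [h _ (not_mem_rowKeys hi hne)]
  rintro ⟨k, ⟨hk, hkL, ψ, hψ, hz, he⟩, hc⟩
  refine ⟨k, ⟨hk, hkL, ψ, hψ, ?_, ?_⟩, (cheapRow_congr hrow).1 hc⟩
  · rw [← minLat_congr hrow]; exact hz
  · rw [← hrow, ← hBi]; exact he

/-- The signs of one row on the block at which it is good and cheap are few. -/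
lemma card_fibre_le {C : ℝ} {kc : ℕ}
    (hcov : ∀ (ν : Type) [Fintype ν] [DecidableEq ν]
      (U : Submodule ℤ (ν → ℤ)) (G : Matrix ν ν ℝ), G.PosDef → ∀ D R : ℝ, 1 ≤ D → 0 ≤ R →
      ∃ (U' : Submodule ℤ (ν → ℤ)) (F : Finset (ν → ℤ)), U' ≤ U ∧
        gdet G U' ≤ 2 * D ^ (2 * finrank ℤ U) ∧
        (F.card : ℝ) ≤ Real.exp (C * Real.log (finrank ℤ U + 2) ^ kc * (R / D ^ 2 + 1)) ∧
        ∀ v ∈ U, (fun i => (v i : ℝ)) ⬝ᵥ G *ᵥ (fun i => (v i : ℝ)) ≤ R →
          ∃ y ∈ F, (fun i => ((v i - y i : ℤ) : ℚ)) ∈ spanQ U')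
    (hC : 0 ≤ C) {L r₀ : ℕ} {D : ℝ} (hD : 1 ≤ D) (hm : 4 ≤ Fintype.card ι)
    (Λ : Submodule ℤ (ι → ℤ)) {J : Finset ι} {i : ι} (hi : i ∉ J) (ω₀ : Sym2 ι → Bool) :
    (((univ : Finset (Sym2 ι → Bool)).filter fun (ω : Sym2 ι → Bool) =>
        (∀ e, e ∉ rowKeys J i → ω e = ω₀ e) ∧ GoodCheap L D r₀ (symM ℤ ω) Λ J i).card : ℝ) ≤
      (Fintype.card ι : ℝ) ^ L * (Real.exp (C * Real.log (2 * (Fintype.card ι : ℝ) + 2) ^ kc *
        (5 * (Fintype.card ι : ℝ) / D ^ 2 + 1)) * 2 ^ r₀) := by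
  set m := Fintype.card ι with hmdef
  set E := before Jᶜ i
  set B₀ : Matrix ι ι ℤ := symM ℤ ω₀
  set Ag : (Sym2 ι → Bool) → Prop := fun ω => ∀ e, e ∉ rowKeys J i → ω e = ω₀ e with hAg
  let P : ℕ → (J → Bool) → Prop := fun k x => CheapRow L D r₀ B₀ Λ J E k ∧
    ∃ ω, Ag ω ∧ (∀ l : J, ω s(i, l.1) = x l) ∧ GoodAt L (symM ℤ ω) Λ E i k
  have hrow : ∀ ω, Ag ω → rowMat (symM ℤ ω) E = rowMat B₀ E := by
    intro ω hω
    ext e l
    have he : (e : ι) ∉ J := mem_compl.1 (mem_filter.1 e.2).1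
    have hei : (e : ι) ≠ i := fun hh => by
      have := (mem_filter.1 e.2).2
      simp [hh] at this
    simp only [rowMat, submatrix_apply, id_eq, symM, Matrix.of_apply, B₀]
    rw [hω _ (not_mem_rowKeys he hei)]
  have hone : ∀ k, ((univ.filter (P k)).card : ℝ) ≤
      Real.exp (C * Real.log (2 * (m : ℝ) + 2) ^ kc * (5 * (m : ℝ) / D ^ 2 + 1)) * 2 ^ r₀ := by
    intro k
    by_cases hc : CheapRow L D r₀ B₀ Λ J E k
    · rw [← Fintype.card_subtype, ← Nat.card_eq_fintype_card]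
      refine card_goodAt_le hcov hC hD hm B₀ Λ (i := i) hc (P k) ?_
      rintro x ⟨-, ω, hω, hx, hg⟩
      refine ⟨_, hrow ω hω, fun l => ?_, fun l hl => ?_, hg⟩
      · simp only [symM, Matrix.of_apply, signVec]
        rw [hx l]
      · simp only [symM, Matrix.of_apply, B₀]
        rw [hω]
        simp only [rowKeys, mem_image, Sym2.eq_iff, not_exists, not_and]
        rintro j hj (⟨-, h⟩ | ⟨-, h⟩)
        · exact hl (h ▸ hj)
        · exact hi (h ▸ hj)
    · rw [filter_false_of_mem fun x _ h => hc h.1, card_empty, Nat.cast_zero]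
      positivity
  set Ks := Finset.Ico 1 (m ^ L) with hKs
  have hsub : ((univ : Finset (Sym2 ι → Bool)).filter fun (ω : Sym2 ι → Bool) =>
      Ag ω ∧ GoodCheap L D r₀ (symM ℤ ω) Λ J i).card ≤ (Ks.biUnion fun k => univ.filter (P k)).card := by
    refine card_le_card_of_injOn (fun ω l => ω s(i, l.1)) (fun ω hω => ?_) fun ω hω ω' hω' he => ?_
    · simp only [coe_filter, mem_univ, true_and, Set.mem_ofPred_eq] at hω
      obtain ⟨hA, k, hg, hc⟩ := hω
      simp only [coe_biUnion, Set.mem_iUnion, coe_filter, mem_univ, true_and, Set.mem_ofPred_eq,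
        exists_prop, hKs, mem_coe, mem_Ico]
      exact ⟨k, ⟨hg.1, by exact_mod_cast hg.2.1⟩, (cheapRow_congr (hrow ω hA)).1 hc, ω, hA,
        fun l => rfl, hg⟩
    · simp only [coe_filter, mem_univ, true_and, Set.mem_ofPred_eq] at hω hω'
      funext e
      by_cases hk : e ∈ rowKeys J i
      · obtain ⟨l, hl, rfl⟩ := mem_image.1 hk
        exact congrFun he ⟨l, hl⟩
      · rw [hω.1 e hk, hω'.1 e hk]
  refine (Nat.cast_le.2 (hsub.trans card_biUnion_le)).trans ?_
  push_cast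
  refine (sum_le_card_nsmul _ _ _ fun k _ => hone k).trans ?_
  rw [nsmul_eq_mul, hKs, Nat.card_Ico]
  refine mul_le_mul_of_nonneg_right ?_ (by positivity)
  refine (Nat.cast_le.2 (Nat.sub_le _ _)).trans (le_of_eq (by push_cast; rfl))

/-- The logarithmic factors of one row are negligible. -/
lemma cost_asymptotics (C : ℝ) (hC : 0 < C) (kc L : ℕ) (δ : ℝ) (hδ : 0 < δ) :
    ∃ N : ℕ, ∀ m : ℕ, N ≤ m → 4 ≤ m ∧
      C * Real.log (2 * (m : ℝ) + 2) ^ kc * (5 * (m : ℝ) / ((m : ℝ) ^ δ) ^ 2 + 1) +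
        L * Real.log m ≤ δ * m * Real.log 2 := by
  set η := δ * Real.log 2 with hη
  have hη0 : 0 < η := by positivity
  set δ' := min (2 * δ) 1
  have hδ' : 0 < δ' := lt_min (by linarith) one_pos
  set c := η / (12 * C * 2 ^ kc)
  have hc : 0 < c := by positivity
  have h1 := (isLittleO_log_rpow_rpow_atTop (kc : ℝ) hδ').def hc
  have h2 := Real.isLittleO_log_id_atTop.def (show 0 < η / (2 * (L + 1)) by positivity)
  obtain ⟨a₁, ha₁⟩ := Filter.eventually_atTop.1 h1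
  obtain ⟨a₂, ha₂⟩ := Filter.eventually_atTop.1 h2
  obtain ⟨N, hN⟩ := exists_nat_ge (max (max a₁ a₂) 4)
  simp only [max_le_iff] at hN
  refine ⟨N, fun m hmN => ?_⟩
  have hm : (N : ℝ) ≤ m := by exact_mod_cast hmN
  have hm4 : (4 : ℝ) ≤ m := hN.2.trans hm
  refine ⟨by exact_mod_cast hm4, ?_⟩
  have hl : 0 ≤ Real.log m := Real.log_nonneg (by linarith)
  have e1 := ha₁ m (hN.1.1.trans hm)
  rw [Real.norm_eq_abs, Real.norm_eq_abs, Real.rpow_natCast, abs_of_nonneg (by positivity),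
    abs_of_nonneg (by positivity)] at e1
  have e2 := ha₂ m (hN.1.2.trans hm)
  rw [Real.norm_eq_abs, Real.norm_eq_abs, id, abs_of_nonneg hl, abs_of_nonneg (by positivity)] at e2
  have hlog : Real.log (2 * (m : ℝ) + 2) ≤ 2 * Real.log m := by
    rw [← Nat.cast_ofNat (n := 2), ← Real.log_pow]
    refine Real.log_le_log (by positivity) ?_
    push_cast
    nlinarith
  have hle : Real.log m ^ kc ≤ c * m := e1.trans (mul_le_mul_of_nonneg_left
    (le_of_le_of_eq (Real.rpow_le_rpow_of_exponent_le (by linarith) (min_le_right _ _))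
      (Real.rpow_one _)) hc.le)
  have hle2 : Real.log m ^ kc ≤ c * ((m : ℝ) ^ δ) ^ 2 := by
    refine e1.trans (mul_le_mul_of_nonneg_left ?_ hc.le)
    rw [← Real.rpow_natCast, ← Real.rpow_mul (by positivity)]
    exact Real.rpow_le_rpow_of_exponent_le (by linarith)
      ((min_le_left _ _).trans (le_of_eq (by push_cast; ring)))
  have hp : (0 : ℝ) < ((m : ℝ) ^ δ) ^ 2 := by positivity
  have h5 : Real.log m ^ kc * (5 * (m : ℝ) / ((m : ℝ) ^ δ) ^ 2 + 1) ≤ 6 * c * m := by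
    have h6 : Real.log m ^ kc * (5 * (m : ℝ) / ((m : ℝ) ^ δ) ^ 2) ≤ 5 * c * m := by
      rw [mul_div_assoc', div_le_iff₀ hp]
      calc Real.log m ^ kc * (5 * (m : ℝ)) ≤ c * ((m : ℝ) ^ δ) ^ 2 * (5 * m) :=
            mul_le_mul_of_nonneg_right hle2 (by positivity)
        _ = _ := by ring
    rw [mul_add, mul_one]
    linarith
  have hfirst : C * Real.log (2 * (m : ℝ) + 2) ^ kc * (5 * (m : ℝ) / ((m : ℝ) ^ δ) ^ 2 + 1) ≤
      η / 2 * m := by
    calc _ ≤ C * (2 * Real.log m) ^ kc * (5 * (m : ℝ) / ((m : ℝ) ^ δ) ^ 2 + 1) := by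
          refine mul_le_mul_of_nonneg_right (mul_le_mul_of_nonneg_left ?_ hC.le) (by positivity)
          exact pow_le_pow_left₀ (Real.log_nonneg (by linarith)) hlog kc
      _ = C * 2 ^ kc * (Real.log m ^ kc * (5 * (m : ℝ) / ((m : ℝ) ^ δ) ^ 2 + 1)) := by
          rw [mul_pow]; ring
      _ ≤ C * 2 ^ kc * (6 * c * m) := mul_le_mul_of_nonneg_left h5 (by positivity)
      _ = η / 2 * m := by simp only [c]; field_simp; ring
  have hsecond : (L : ℝ) * Real.log m ≤ η / 2 * m := by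
    calc (L : ℝ) * Real.log m ≤ ((L : ℝ) + 1) * (η / (2 * (L + 1)) * m) :=
          mul_le_mul (by linarith) e2 hl (by positivity)
      _ = _ := by field_simp
  have : δ * m * Real.log 2 = η * m := by rw [hη]; ring
  linarith

/-- Good rows with only small sublattices are rare, independently over the rows. -/
theorem good_rows_rare (L : ℕ) (δ : ℝ) (hδ : 0 < δ) :
    ∃ N : ℕ, ∀ (ι : Type) [Fintype ι] [DecidableEq ι], N ≤ Fintype.card ι →
      ∃ D : ℝ, 1 ≤ D ∧ Real.log D ≤ δ * Real.log (Fintype.card ι) ∧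
        ∀ (Λ : Submodule ℤ (ι → ℤ)) (J A : Finset ι) (r₀ : ℕ), A ⊆ Jᶜ →
          Pr (fun ω : Sym2 ι → Bool => ∀ i ∈ A, GoodCheap L D r₀ (symM ℤ ω) Λ J i) ≤
            (2 : ℝ) ^ (((r₀ : ℝ) + δ * Fintype.card ι - J.card) * A.card) := by
  obtain ⟨C, kc, hC, hcov⟩ := exists_cover_sublattice
  obtain ⟨N, hN⟩ := cost_asymptotics C hC kc L δ hδ
  refine ⟨N, fun ι _ _ hι => ?_⟩
  obtain ⟨hm, hexp⟩ := hN _ hι
  set m := Fintype.card ι with hmdef
  have hmR : (4 : ℝ) ≤ m := by exact_mod_cast hm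
  refine ⟨(m : ℝ) ^ δ, Real.one_le_rpow (by linarith) hδ.le,
    (Real.log_rpow (by linarith) δ).le, fun Λ J A r₀ hA => ?_⟩
  have hD : (1 : ℝ) ≤ (m : ℝ) ^ δ := Real.one_le_rpow (by linarith) hδ.le
  set f := (A.map (Fintype.equivFin ι).toEmbedding).orderEmbOfFin rfl
  set d : Fin (A.map (Fintype.equivFin ι).toEmbedding).card → ι :=
    fun t => (Fintype.equivFin ι).symm (f t) with hd
  have hdA : ∀ t, d t ∈ A := fun t => by
    obtain ⟨i, hi, he⟩ := mem_map.1 (orderEmbOfFin_mem _ rfl t)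
    simp only [hd, f]
    rw [← he]
    simpa using hi
  have hdJ : ∀ t, d t ∉ J := fun t => mem_compl.1 (hA (hdA t))
  set b : ℝ := (2 : ℝ) ^ ((r₀ : ℝ) + δ * m - J.card) with hb
  have hseq := card_seq_real_le (b := b) (by positivity) _
    (fun t ω => GoodCheap L ((m : ℝ) ^ δ) r₀ (symM ℤ ω) Λ J (d t))
    (fun t => rowKeys J (d t))
    (fun t s hts ω ω' h => goodCheap_invariant (hdJ t)
      (fun hh => hts.ne (f.injective ((Fintype.equivFin ι).symm.injective hh)))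
      (by
        simp only [before, mem_filter, hd, Equiv.apply_symm_apply, not_and, not_lt]
        exact fun _ => (f.monotone hts.le))
      h)
    (fun t ω₀ => by
      refine (card_fibre_le hcov hC.le hD hm Λ (hdJ t) ω₀).trans ?_
      rw [card_rowKeys, hb, ← Real.rpow_natCast 2 J.card, ← Real.rpow_add two_pos, sub_add_cancel,
        Real.rpow_add two_pos, Real.rpow_natCast, mul_comm ((2 : ℝ) ^ r₀), ← mul_assoc]
      refine mul_le_mul_of_nonneg_right ?_ (by positivity)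
      rw [Real.rpow_def_of_pos two_pos, ← Real.exp_log (pow_pos (show (0:ℝ) < m by linarith) L),
        ← Real.exp_add, Real.exp_le_exp, Real.log_pow]
      linarith)
  rw [Pr_eq, div_le_iff₀ (by positivity), Real.rpow_mul two_pos.le, Real.rpow_natCast, ← hb]
  refine le_trans (Nat.cast_le.2 (card_le_card ?_)) (hseq.trans (le_of_eq (by rw [card_map])))
  intro ω hω
  simp only [mem_filter, mem_univ, true_and] at hω ⊢
  exact fun t => hω _ (hdA t)

end Vale.Agent.P160R.Five
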