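import Vale.Agent.P160R.Five.Sub
import Vale.Agent.P160R.Defs

/-!
# The moment step: definitions

A fixed lattice `Λ` (the orthogonal complement of a member of the family), a block `J`, and for every
exposed set `E` of rows the lattice minimising a height among those containing the image of `Λ`.
-/

namespace Vale.Agent.P160R.Five

open Matrix Module Finset
open scoped Classical

set_option linter.unusedSectionVars false
set_option linter.unusedFintypeInType false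
set_option linter.unusedDecidableInType false

variable {ι : Type} [Fintype ι] [DecidableEq ι]

/-- The rows in `E`. -/
def rowMat (B : Matrix ι ι ℤ) (E : Finset ι) : Matrix E ι ℤ := B.submatrix Subtype.val id

/-- The image of `Λ` under the rows in `E`. -/
def imgL (B : Matrix ι ι ℤ) (Λ : Submodule ℤ (ι → ℤ)) (E : Finset ι) :
    Submodule ℤ (E → ℤ) := mapL (rowMat B E) Λ

/-- The height with slope `K`, base the order `m`. -/
noncomputable def height (m K : ℕ) {κ : Type} [Fintype κ] [DecidableEq κ]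
    (Y : Submodule ℤ (κ → ℤ)) : ℝ :=
  (m : ℝ) ^ (2 * K * finrank ℤ Y) * gdet 1 Y

/-- A minimiser of the height among the lattices containing `Y₀`. -/
def IsMinLat (m K : ℕ) {κ : Type} [Fintype κ] [DecidableEq κ] (Y₀ S : Submodule ℤ (κ → ℤ)) :
    Prop := Y₀ ≤ S ∧ ∀ Y, Y₀ ≤ Y → height m K S ≤ height m K Y

lemma height_pos {m : ℕ} (hm : 1 ≤ m) (K : ℕ) {κ : Type} [Fintype κ] [DecidableEq κ]
    (Y : Submodule ℤ (κ → ℤ)) : 0 < height m K Y :=
  mul_pos (pow_pos (by exact_mod_cast hm) _) (gdet_pos PosDef.one _)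

lemma exists_isMinLat (m K : ℕ) {κ : Type} [Fintype κ] [DecidableEq κ]
    (Y₀ : Submodule ℤ (κ → ℤ)) : ∃ S, IsMinLat m K Y₀ S := by
  have hn : ∀ Y : Submodule ℤ (κ → ℤ), ∃ n : ℕ, height m K Y = n := fun Y => by
    obtain ⟨n, -, hn⟩ := exists_nat_gdet Y
    exact ⟨m ^ (2 * K * finrank ℤ Y) * n, by simp [height, hn]⟩
  have hex : ∃ n : ℕ, ∃ Y, Y₀ ≤ Y ∧ height m K Y = n := by
    obtain ⟨n, hn⟩ := hn Y₀
    exact ⟨n, Y₀, le_rfl, hn⟩
  obtain ⟨S, hS, hSn⟩ := Nat.find_spec hex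
  refine ⟨S, hS, fun Y hY => ?_⟩
  obtain ⟨n, hn⟩ := hn Y
  rw [hSn, hn]
  exact_mod_cast Nat.find_min' hex ⟨Y, hY, hn⟩

/-- The chosen minimiser at the exposed rows `E`. -/
noncomputable def minLat (K : ℕ) (B : Matrix ι ι ℤ) (Λ : Submodule ℤ (ι → ℤ)) (E : Finset ι) :
    Submodule ℤ (E → ℤ) := (exists_isMinLat (Fintype.card ι) K (imgL B Λ E)).choose

lemma minLat_spec (K : ℕ) (B : Matrix ι ι ℤ) (Λ : Submodule ℤ (ι → ℤ)) (E : Finset ι) :
    IsMinLat (Fintype.card ι) K (imgL B Λ E) (minLat K B Λ E) :=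
  (exists_isMinLat _ _ _).choose_spec

/-- Submodularity of the height. -/
lemma height_submodular (m K : ℕ) {κ : Type} [Fintype κ] [DecidableEq κ]
    (X Y : Submodule ℤ (κ → ℤ)) :
    height m K (X ⊔ Y) * height m K (X ⊓ Y) ≤ height m K X * height m K Y := by
  have e : (m : ℝ) ^ (2 * K * finrank ℤ (X ⊔ Y : Submodule ℤ (κ → ℤ))) *
      (m : ℝ) ^ (2 * K * finrank ℤ (X ⊓ Y : Submodule ℤ (κ → ℤ))) =
      (m : ℝ) ^ (2 * K * finrank ℤ X) * (m : ℝ) ^ (2 * K * finrank ℤ Y) := by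
    rw [← pow_add, ← pow_add, ← mul_add, ← mul_add, finrank_sup_add_inf]
  simp only [height]
  calc _ = (m : ℝ) ^ (2 * K * finrank ℤ X) * (m : ℝ) ^ (2 * K * finrank ℤ Y) *
        (gdet 1 (X ⊔ Y) * gdet 1 (X ⊓ Y)) := by rw [← e]; ring
    _ ≤ (m : ℝ) ^ (2 * K * finrank ℤ X) * (m : ℝ) ^ (2 * K * finrank ℤ Y) *
        (gdet 1 X * gdet 1 Y) :=
      mul_le_mul_of_nonneg_left (gdet_submodular PosDef.one X Y) (by positivity)
    _ = _ := by ring

/-- The part of any lattice inside a minimiser has no larger height. -/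
lemma height_inf_le {m K : ℕ} (hm : 1 ≤ m) {κ : Type} [Fintype κ] [DecidableEq κ]
    {Y₀ S : Submodule ℤ (κ → ℤ)} (hS : IsMinLat m K Y₀ S) (X : Submodule ℤ (κ → ℤ)) :
    height m K (S ⊓ X) ≤ height m K X := by
  refine le_of_mul_le_mul_left ?_ (height_pos hm K S)
  calc height m K S * height m K (S ⊓ X) ≤ height m K (S ⊔ X) * height m K (S ⊓ X) :=
        mul_le_mul_of_nonneg_right (hS.2 _ (hS.1.trans le_sup_left)) (height_pos hm K _).le
    _ ≤ _ := height_submodular m K S X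

/-- The rows of `R` before `i`, in a fixed order. -/
noncomputable def before (R : Finset ι) (i : ι) : Finset ι :=
  R.filter fun l => Fintype.equivFin ι l < Fintype.equivFin ι i

/-- Row `i` is, with index `k`, an integral combination of small norm on the minimiser at `E`. -/
def GoodAt (L : ℕ) (B : Matrix ι ι ℤ) (Λ : Submodule ℤ (ι → ℤ)) (E : Finset ι) (i : ι) (k : ℕ) :
    Prop :=
  1 ≤ k ∧ (k : ℝ) < (Fintype.card ι : ℝ) ^ L ∧ ∃ ψ : E → ℝ,
    ψ ⬝ᵥ ψ ≤ (Fintype.card ι : ℝ) ^ (2 * L) ∧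
    (∀ s ∈ minLat (4 * L) B Λ E, ∃ z : ℤ, (k : ℝ) * ∑ l, ψ l * (s l : ℝ) = z) ∧
    ∀ x ∈ Λ, ∑ l, ψ l * ((rowMat B E).mulVec x l : ℝ) = ((B i ⬝ᵥ x : ℤ) : ℝ)

/-- The pairs (block part, coordinates on the minimiser) compatible with `Λ` at index `k`. -/
noncomputable def rowLat (L : ℕ) (B : Matrix ι ι ℤ) (Λ : Submodule ℤ (ι → ℤ)) (J E : Finset ι)
    (k : ℕ) : Submodule ℤ ((J ⊕ Fin (finrank ℤ (minLat (4 * L) B Λ E))) → ℤ) where
  carrier := {w | ∀ x ∈ Λ, ∀ a, (basisMat (minLat (4 * L) B Λ E)).mulVec a = (rowMat B E).mulVec x →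
    (w ∘ Sum.inr) ⬝ᵥ a = (k : ℤ) * ((w ∘ Sum.inl) ⬝ᵥ fun l : J => x l)}
  add_mem' {u v} hu hv x hx a ha := by
    have h1 := hu x hx a ha
    have h2 := hv x hx a ha
    simp only [dotProduct, Function.comp_apply, Pi.add_apply, add_mul, Finset.sum_add_distrib,
      mul_add] at h1 h2 ⊢
    linarith
  zero_mem' x _ a _ := by simp [dotProduct]
  smul_mem' c u hu x hx a ha := by
    have h1 := hu x hx a ha
    simp only [dotProduct, Function.comp_apply, Pi.smul_apply, smul_eq_mul, mul_assoc,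
      ← Finset.mul_sum] at h1 ⊢
    rw [h1]
    ring

/-- The form on `rowLat`: the block part, and the norm of the functional scaled down. -/
noncomputable def rowForm (L : ℕ) (B : Matrix ι ι ℤ) (Λ : Submodule ℤ (ι → ℤ)) (J E : Finset ι)
    (k : ℕ) : Matrix (J ⊕ Fin (finrank ℤ (minLat (4 * L) B Λ E)))
      (J ⊕ Fin (finrank ℤ (minLat (4 * L) B Λ E))) ℝ :=
  fromBlocks 1 0 0 ((((Fintype.card ι : ℝ) ^ (3 * L) * (k : ℝ) ^ 2))⁻¹ •
    (toR ((basisMat (minLat (4 * L) B Λ E))ᵀ * basisMat (minLat (4 * L) B Λ E)))⁻¹)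

/-- The projection to the block part. -/
def blockProj (J : Finset ι) (s : ℕ) : Matrix J (J ⊕ Fin s) ℤ := fromCols 1 0

/-- Every sublattice of small determinant has small rank on the block. -/
def CheapRow (L : ℕ) (D : ℝ) (r₀ : ℕ) (B : Matrix ι ι ℤ) (Λ : Submodule ℤ (ι → ℤ))
    (J E : Finset ι) (k : ℕ) : Prop :=
  ∀ U ≤ rowLat L B Λ J E k,
    gdet (rowForm L B Λ J E k) U ≤ 2 * D ^ (4 * Fintype.card ι) →
      finrank ℤ (mapL (blockProj J (finrank ℤ (minLat (4 * L) B Λ E))) U) ≤ r₀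

/-- A good row all of whose sublattices are small. -/
def GoodCheap (L : ℕ) (D : ℝ) (r₀ : ℕ) (B : Matrix ι ι ℤ) (Λ : Submodule ℤ (ι → ℤ))
    (J : Finset ι) (i : ι) : Prop :=
  ∃ k, GoodAt L B Λ (before Jᶜ i) i k ∧ CheapRow L D r₀ B Λ J (before Jᶜ i) k

/-- The vectors of a lattice on the block are orthogonal to `w p` modulo every `p ∈ T`. -/
def AnnBlock (T : Finset ℕ) (w : ℕ → ι → ℤ) (J : Finset ι) (W : Submodule ℤ (J → ℤ)) : Prop :=
  ∀ u ∈ W, ∀ p ∈ T, (p : ℤ) ∣ ∑ l : J, u l * w p l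

/-- Kernel vectors modulo a set of medium primes. -/
def KerPrimes (T : Finset ℕ) (w : ℕ → ι → ℤ) (B : Matrix ι ι ℤ) : Prop :=
  ∀ p ∈ T, p.Prime ∧ (Fintype.card ι : ℝ) ^ (9 / 10 : ℝ) < p ∧ (∃ i, ¬ (p : ℤ) ∣ w p i) ∧
    ∀ i, (p : ℤ) ∣ B.mulVec (w p) i

/-- Linearly many medium primes share a cube-rich annihilator. -/
def Bad (θ ε : ℝ) (B : Matrix ι ι ℤ) : Prop :=
  ∃ (T : Finset ℕ) (w : ℕ → ι → ℤ), KerPrimes T w B ∧ θ * Fintype.card ι ≤ T.card ∧
    (2 : ℝ) ^ (ε * Fintype.card ι) <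
      (Nat.card {x : ι → Bool // ∀ p ∈ T, (p : ℤ) ∣ signVec x ⬝ᵥ w p} : ℝ)

end Vale.Agent.P160R.Five
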