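import Vale.Agent.P160R.Cover.Gram
import Vale.Agent.P160R.Atom.Linear

/-!
# Monotonicity of determinants and ratios of restricted forms
-/

namespace Vale.Agent.P160R.Five

open Matrix
open scoped MatrixOrder

variable {ι κ μ : Type} [Fintype ι] [Fintype κ] [DecidableEq κ] [Fintype μ] [DecidableEq μ]

/-- Adding a positive semidefinite matrix does not lower the determinant. -/
lemma det_le_det_add [DecidableEq ι] {A D : Matrix ι ι ℝ} (hA : A.PosDef) (hD : D.PosSemidef) :
    A.det ≤ (A + D).det := by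
  obtain ⟨C, rfl⟩ := CStarAlgebra.nonneg_iff_eq_star_mul_self.mp hD.nonneg
  rw [star_eq_conjTranspose, det_add_mul _ _ hA.det_pos.ne'.isUnit]
  refine le_mul_of_one_le_right hA.det_pos.le ?_
  have hM : (C * A⁻¹ * Cᴴ).PosSemidef := hA.inv.posSemidef.mul_mul_conjTranspose_same C
  have h1 : (1 + C * A⁻¹ * Cᴴ).PosDef := PosDef.one.add_posSemidef hM
  rw [h1.1.det_eq_prod_eigenvalues]
  simp only [RCLike.ofReal_real_eq_id, id_eq]
  refine Finset.one_le_prod fun i _ => ?_
  set v : ι → ℝ := ⇑(h1.1.eigenvectorBasis i) with hv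
  have he : (1 + C * A⁻¹ * Cᴴ) *ᵥ v = h1.1.eigenvalues i • v := h1.1.mulVec_eigenvectorBasis i
  have hn : v ⬝ᵥ v = 1 := by
    have h := h1.1.eigenvectorBasis.orthonormal.1 i
    have h2 : ‖h1.1.eigenvectorBasis i‖ ^ 2 = 1 := by rw [h, one_pow]
    rw [← real_inner_self_eq_norm_sq, EuclideanSpace.inner_eq_star_dotProduct] at h2
    simpa [hv] using h2
  have h3 := congrArg (fun x => v ⬝ᵥ x) he
  simp only [add_mulVec, one_mulVec, dotProduct_add, dotProduct_smul, hn, smul_eq_mul, mul_one] at h3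
  have h4 := hM.dotProduct_mulVec_nonneg v
  rw [star_trivial] at h4
  linarith

/-- A smaller form has a smaller determinant. -/
lemma det_le_det_of_form_le [DecidableEq ι] {R P : Matrix ι ι ℝ} (hR : R.PosDef) (hP : P.IsHermitian)
    (h : ∀ a, a ⬝ᵥ R *ᵥ a ≤ a ⬝ᵥ P *ᵥ a) : R.det ≤ P.det := by
  have hD : (P - R).PosSemidef := .of_dotProduct_mulVec_nonneg (hP.sub hR.1) fun a => by
    rw [star_trivial, sub_mulVec, dotProduct_sub]
    linarith [h a]
  simpa using det_le_det_add hR hD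

/-- The form of the columns `C` modulo the span of the columns `A`. -/
noncomputable def sform (G : Matrix ι ι ℝ) (A : Matrix ι κ ℝ) (C : Matrix ι μ ℝ) : Matrix μ μ ℝ :=
  Cᵀ * G * C - (Aᵀ * G * C)ᴴ * (Aᵀ * G * A)⁻¹ * (Aᵀ * G * C)

lemma gram_posDef {G : Matrix ι ι ℝ} (hG : G.PosDef) {A : Matrix ι κ ℝ}
    (hA : Function.Injective A.mulVec) : (Aᵀ * G * A).PosDef := by
  have := hG.conjTranspose_mul_mul_same hA
  rwa [conjTranspose_eq_transpose_of_trivial] at this

lemma gram_form (G : Matrix ι ι ℝ) (A : Matrix ι κ ℝ) (a : κ → ℝ) :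
    a ⬝ᵥ (Aᵀ * G * A) *ᵥ a = (A *ᵥ a) ⬝ᵥ G *ᵥ (A *ᵥ a) := by
  rw [← mulVec_mulVec, ← mulVec_mulVec, dotProduct_mulVec, vecMul_transpose]

omit [DecidableEq κ] [DecidableEq μ] [Fintype ι] in
lemma injective_inl {A : Matrix ι κ ℝ} {C : Matrix ι μ ℝ}
    (h : Function.Injective (fromCols A C).mulVec) : Function.Injective A.mulVec := by
  intro a b hab
  have h2 : fromCols A C *ᵥ Sum.elim a 0 = fromCols A C *ᵥ Sum.elim b 0 := by
    simp [fromCols_mulVec_sumElim, hab]
  funext i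
  simpa using congrFun (h h2) (Sum.inl i)

lemma sform_le {G : Matrix ι ι ℝ} (hG : G.PosDef) {A : Matrix ι κ ℝ} (C : Matrix ι μ ℝ)
    (hA : Function.Injective A.mulVec) (q : κ → ℝ) (a : μ → ℝ) :
    a ⬝ᵥ sform G A C *ᵥ a ≤ (A *ᵥ q + C *ᵥ a) ⬝ᵥ G *ᵥ (A *ᵥ q + C *ᵥ a) := by
  have h := schur_le (Aᵀ * G * A) (Aᵀ * G * C) (Cᵀ * G * C) (gram_posDef hG hA) q a
  rwa [← gram_fromCols G hG.1, gram_form, fromCols_mulVec_sumElim] at h

lemma sform_attained {G : Matrix ι ι ℝ} (hG : G.PosDef) {A : Matrix ι κ ℝ} (C : Matrix ι μ ℝ)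
    (hA : Function.Injective A.mulVec) (a : μ → ℝ) :
    ∃ q : κ → ℝ, a ⬝ᵥ sform G A C *ᵥ a = (A *ᵥ q + C *ᵥ a) ⬝ᵥ G *ᵥ (A *ᵥ q + C *ᵥ a) := by
  have hA' := gram_posDef hG hA
  let _ : Invertible (Aᵀ * G * A) := hA'.isUnit.invertible
  refine ⟨-(((Aᵀ * G * A)⁻¹ * (Aᵀ * G * C)) *ᵥ a), ?_⟩
  have h1 := schur_complement_eq₁₁ (Aᵀ * G * C) (Cᵀ * G * C)
    (-(((Aᵀ * G * A)⁻¹ * (Aᵀ * G * C)) *ᵥ a)) a hA'.1
  simp only [star_trivial] at h1
  rw [neg_add_cancel, zero_vecMul, zero_dotProduct, zero_add, ← dotProduct_mulVec,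
    ← gram_fromCols G hG.1, ← dotProduct_mulVec, gram_form, fromCols_mulVec_sumElim] at h1
  exact h1.symm

lemma sform_posDef {G : Matrix ι ι ℝ} (hG : G.PosDef) {A : Matrix ι κ ℝ} {C : Matrix ι μ ℝ}
    (h : Function.Injective (fromCols A C).mulVec) : (sform G A C).PosDef := by
  refine schur_posDef _ _ _ (gram_posDef hG (injective_inl h)) ?_
  rw [← gram_fromCols G hG.1]
  exact gram_posDef hG h

lemma det_fromCols {G : Matrix ι ι ℝ} (hG : G.PosDef) (A : Matrix ι κ ℝ) (C : Matrix ι μ ℝ)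
    (hA : Function.Injective A.mulVec) :
    ((fromCols A C)ᵀ * G * fromCols A C).det = (Aᵀ * G * A).det * (sform G A C).det :=
  det_gram_fromCols G hG.1 A C (gram_posDef hG hA)

omit [DecidableEq μ] in
lemma sform_mul {ν : Type} [Fintype ν] (G : Matrix ι ι ℝ) (A : Matrix ι κ ℝ)
    (C : Matrix ι μ ℝ) (X : Matrix μ ν ℝ) : sform G A (C * X) = Xᵀ * sform G A C * X := by
  simp only [sform, conjTranspose_eq_transpose_of_trivial, transpose_mul, Matrix.mul_sub,
    Matrix.sub_mul, Matrix.mul_assoc]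

/-- For forms `R ≤ β P`, restriction to an integral subspace costs at most `β` per dimension. -/
lemma det_ratio_le {q s : ℕ} {P R : Matrix (Fin q) (Fin q) ℝ} (hP : P.PosDef) (hR : R.PosDef)
    {β : ℝ} (hle : ∀ a, a ⬝ᵥ R *ᵥ a ≤ β * (a ⬝ᵥ P *ᵥ a))
    (C : Matrix (Fin q) (Fin s) ℤ) (hC : Function.Injective (toQ C).mulVec) :
    ((toR C)ᵀ * P * toR C).det * R.det ≤
      β ^ (q - s) * (((toR C)ᵀ * R * toR C).det * P.det) := by
  obtain ⟨j, t, hj, hinj⟩ := exists_completion C (1 : Matrix (Fin q) (Fin q) ℤ)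
    (by simp) hC
  simp only [Fintype.card_fin] at hj
  set Y := toR ((1 : Matrix (Fin q) (Fin q) ℤ).submatrix id t) with hY
  have hW : Function.Injective (fromCols (toR C) Y).mulVec := by
    rw [← toR_fromCols]; exact toR_mulVec_injective _ hinj
  set W := fromCols (toR C) Y with hWdef
  have e : Fin q ≃ Fin s ⊕ Fin j := Fintype.equivOfCardEq (by simp [hj])
  have hdet : ∀ M : Matrix (Fin q) (Fin q) ℝ,
      (Wᵀ * M * W).det = (W.submatrix id e).det ^ 2 * M.det := by
    intro M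
    rw [← det_submatrix_equiv_self e, pow_two]
    have e1 : (Wᵀ * M * W).submatrix e e = (W.submatrix id e)ᵀ * M * W.submatrix id e := by
      ext a b; simp [Matrix.mul_apply]
    rw [e1, det_mul, det_mul, det_transpose]
    ring
  have hCR : Function.Injective (toR C).mulVec := injective_inl hW
  have hP' := det_fromCols hP (toR C) Y hCR
  have hR' := det_fromCols hR (toR C) Y hCR
  rw [← hWdef, hdet] at hP' hR'
  have hS : (sform R (toR C) Y).det ≤ β ^ j * (sform P (toR C) Y).det := by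
    have h := det_le_det_of_form_le (sform_posDef hR hW) (R := sform R (toR C) Y)
      (P := β • sform P (toR C) Y)
      (by
        refine IsHermitian.smul (sform_posDef hP hW).1 ?_
        simp [IsSelfAdjoint])
      fun a => by
        obtain ⟨z, hz⟩ := sform_attained hP Y hCR a
        rw [smul_mulVec, dotProduct_smul, smul_eq_mul, hz]
        exact (sform_le hR Y hCR z a).trans (hle _)
    rwa [det_smul, Fintype.card_fin] at h
  have hCP : 0 < ((toR C)ᵀ * P * toR C).det := (gram_posDef hP hCR).det_pos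
  have hCR' : 0 < ((toR C)ᵀ * R * toR C).det := (gram_posDef hR hCR).det_pos
  have hw : 0 < (W.submatrix id e).det ^ 2 := by
    have := mul_pos hCP (sform_posDef hP hW).det_pos
    rw [← hP'] at this
    exact (mul_pos_iff_of_pos_right hP.det_pos).1 this
  rw [show q - s = j by omega]
  refine le_of_mul_le_mul_left ?_ hw
  calc (W.submatrix id e).det ^ 2 * (((toR C)ᵀ * P * toR C).det * R.det)
      = ((toR C)ᵀ * P * toR C).det * ((W.submatrix id e).det ^ 2 * R.det) := by ring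
    _ ≤ ((toR C)ᵀ * P * toR C).det * (((toR C)ᵀ * R * toR C).det *
          (β ^ j * (sform P (toR C) Y).det)) := by
        rw [hR']
        exact mul_le_mul_of_nonneg_left (mul_le_mul_of_nonneg_left hS hCR'.le) hCP.le
    _ = β ^ j * ((toR C)ᵀ * R * toR C).det *
          (((toR C)ᵀ * P * toR C).det * (sform P (toR C) Y).det) := by ring
    _ = _ := by rw [← hP']; ring

end Vale.Agent.P160R.Five
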