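import Vale.Agent.P160R.Five.Defs
import Vale.Agent.P160R.Atom

/-!
# A rich annihilator contains a small lattice
-/

namespace Vale.Agent.P160R.Five

open Matrix Module Finset
open scoped Classical

variable {ι : Type} [Fintype ι] [DecidableEq ι]

/-- The determinant allowance absorbs the scale of the cover. -/
lemma eventually_scale_le (k : ℕ) :
    ∃ N : ℕ, ∀ m : ℕ, N ≤ m →
      1 + 2 * (m : ℝ) * (2 * Real.log (Real.log ((m : ℝ) + 2) ^ (k + 1))) ≤ lBudget m * m := by
  obtain ⟨N, hN⟩ := exists_nat_ge (Real.exp (Real.exp (8 * ((k : ℝ) + 1) + 1)))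
  refine ⟨max N 2, fun m hm => ?_⟩
  simp only [max_le_iff] at hm
  have hm2 : (2 : ℝ) ≤ m := by exact_mod_cast hm.2
  have hNm : Real.exp (Real.exp (8 * ((k : ℝ) + 1) + 1)) ≤ m := hN.trans (Nat.cast_le.2 hm.1)
  have h1 : Real.exp (8 * ((k : ℝ) + 1) + 1) ≤ Real.log m := by
    rw [← Real.log_exp (Real.exp _)]
    exact Real.log_le_log (Real.exp_pos _) hNm
  have hl : 0 < Real.log (m : ℝ) := lt_of_lt_of_le (Real.exp_pos _) h1
  set ℓ := Real.log (Real.log (m : ℝ)) with hℓ
  have h2 : 8 * ((k : ℝ) + 1) + 1 ≤ ℓ := by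
    rw [hℓ, ← Real.log_exp (8 * ((k : ℝ) + 1) + 1)]
    exact Real.log_le_log (Real.exp_pos _) h1
  have hk : (0 : ℝ) ≤ k := Nat.cast_nonneg k
  have h3 : Real.log (Real.log ((m : ℝ) + 2)) ≤ ℓ + 1 := by
    have e : ℓ + 1 = Real.log (Real.exp 1 * Real.log m) := by
      rw [Real.log_mul (Real.exp_pos 1).ne' hl.ne', Real.log_exp, hℓ]
      ring
    rw [e]
    refine Real.log_le_log (Real.log_pos (by linarith)) ?_
    calc Real.log ((m : ℝ) + 2) ≤ Real.log ((m : ℝ) ^ 2) :=
          Real.log_le_log (by linarith) (by nlinarith)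
      _ = 2 * Real.log m := by rw [Real.log_pow]; norm_num
      _ ≤ _ := mul_le_mul_of_nonneg_right (by linarith [Real.add_one_le_exp (1 : ℝ)]) hl.le
  rw [Real.log_pow, lBudget, ← hℓ]
  push_cast
  have h4 : ((k : ℝ) + 1) * Real.log (Real.log ((m : ℝ) + 2)) ≤ ((k : ℝ) + 1) * (ℓ + 1) :=
    mul_le_mul_of_nonneg_left h3 (by linarith)
  have h5 : 1 + 4 * (((k : ℝ) + 1) * (ℓ + 1)) ≤ ℓ ^ 2 := by
    nlinarith [mul_le_mul_of_nonneg_right h2 (show (0 : ℝ) ≤ ℓ by linarith)]
  nlinarith [mul_le_mul_of_nonneg_right h5 (show (0 : ℝ) ≤ m by linarith),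
    mul_le_mul_of_nonneg_left h4 (show (0 : ℝ) ≤ 4 * m by linarith)]

/-- Many cube points in the annihilator give a sublattice of small determinant and large rank. -/
theorem rich_extract (ε : ℝ) (hε : 0 < ε) :
    ∃ N : ℕ, ∀ (ι : Type) [Fintype ι] [DecidableEq ι], N ≤ Fintype.card ι →
      ∀ (T : Finset ℕ) (w : ℕ → ι → ℤ),
        (2 : ℝ) ^ (ε * Fintype.card ι) <
            (Nat.card {x : ι → Bool // ∀ p ∈ T, (p : ℤ) ∣ signVec x ⬝ᵥ w p} : ℝ) →
          ∃ (r : ℕ) (Z : Matrix ι (Fin r) ℤ), Function.Injective (toQ Z).mulVec ∧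
            ε / 2 * Fintype.card ι ≤ r ∧
            (((Zᵀ * Z).det : ℤ) : ℝ) ≤
              (2 : ℝ) ^ (lBudget (Fintype.card ι) * Fintype.card ι) ∧
            ∀ p ∈ T, ∀ c, (p : ℤ) ∣ Zᵀ.mulVec (w p) c := by
  obtain ⟨C, k, hC, hcov⟩ := short_vectors_cover
  obtain ⟨N₁, hN2, hN₁⟩ := atom_asymptotics C k (ε * Real.log 2 / 2) (by positivity)
  obtain ⟨N₂, hN₂⟩ := eventually_scale_le k
  refine ⟨max N₁ N₂, fun ι _ _ hm T w hrich => ?_⟩
  simp only [max_le_iff] at hm
  obtain ⟨hL1, hcount, -⟩ := hN₁ _ hm.1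
  have hscale := hN₂ _ hm.2
  set m := Fintype.card ι with hmdef
  set D := Real.log ((m : ℝ) + 2) ^ (k + 1) with hDdef
  have hD : 1 ≤ D := one_le_pow₀ hL1
  obtain ⟨d, A, hd, hA, hAS, hAz⟩ := exists_annBasis T w
  set G : Matrix (Fin d) (Fin d) ℝ := (D ^ 2)⁻¹ • ((P160R.toR A)ᵀ * P160R.toR A) with hG
  have hGpd : G.PosDef := by
    have h1 := PosDef.conjTranspose_mul_self (P160R.toR A) (toR_mulVec_injective A hA)
    rw [conjTranspose_eq_transpose_of_trivial] at h1
    exact h1.smul (by positivity)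
  obtain ⟨r, Z, F, hZ, hdetZ, hF, hpts⟩ := hcov d G hGpd ((m : ℝ) / D ^ 2) (by positivity)
  have hUR : P160R.toR (A * Z) = P160R.toR A * P160R.toR Z :=
    Matrix.map_mul (f := Int.castRingHom ℝ)
  have hUQ : toQ (A * Z) = toQ A * toQ Z := Matrix.map_mul (f := Int.castRingHom ℚ)
  have hU : Function.Injective (toQ (A * Z)).mulVec := by
    intro a b hab
    rw [hUQ, ← mulVec_mulVec, ← mulVec_mulVec] at hab
    exact (mulVec_injective_iff.2 hZ : Function.Injective (toQ Z).mulVec) (hA hab)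
  have hrd : r ≤ m := by
    have := (mulVec_injective_iff.1 hU).fintype_card_le_finrank
    simpa using this
  refine ⟨r, A * Z, hU, ?_, ?_, fun p hp c => ?_⟩
  · set W : Submodule ℚ (ι → ℚ) := LinearMap.range (toQ (A * Z)).mulVecLin with hW
    have hWr : Module.finrank ℚ W ≤ r := by
      have := LinearMap.finrank_range_le (toQ (A * Z)).mulVecLin
      simpa using this
    have hcard := card_cube_cover W hWr (F.image A.mulVec)
      (fun x => ∀ p ∈ T, (p : ℤ) ∣ signVec x ⬝ᵥ w p) (fun x hx => by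
        obtain ⟨a, ha⟩ := hAz _ hx
        have hsq : ((fun i => (a i : ℝ)) ⬝ᵥ G.mulVec fun i => (a i : ℝ)) ≤ (m : ℝ) / D ^ 2 := by
          rw [hG, smul_mulVec, dotProduct_smul, ← mulVec_mulVec, dotProduct_mulVec,
            vecMul_transpose, smul_eq_mul, ← div_eq_inv_mul]
          refine le_of_eq (congrArg (· / D ^ 2) ?_)
          have e : (P160R.toR A).mulVec (fun i => (a i : ℝ)) =
              fun i => ((signVec x i : ℤ) : ℝ) := by
            rw [← ha]
            funext i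
            simp [mulVec, dotProduct, P160R.toR]
          rw [e, hmdef, dotProduct, ← Finset.card_univ, Finset.cast_card]
          refine Finset.sum_congr rfl fun i _ => ?_
          simp only [signVec]
          split <;> simp
        obtain ⟨y, hy, hspan⟩ := hpts a hsq
        refine ⟨A.mulVec y, Finset.mem_image_of_mem _ hy, ?_⟩
        change _ ∈ Submodule.span ℚ (Set.range (toQ Z).col) at hspan
        rw [← range_mulVecLin] at hspan
        obtain ⟨q, hq⟩ := hspan
        refine ⟨q, ?_⟩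
        rw [mulVecLin_apply] at hq ⊢
        rw [hUQ, ← mulVec_mulVec, hq, ← ha]
        funext i
        simp [mulVec, dotProduct, toQ, mul_sub, Finset.sum_sub_distrib])
    have h1 := hrich.trans_le (Nat.cast_le.2 hcard)
    push_cast at h1
    have hFle : (((F.image A.mulVec).card : ℕ) : ℝ) ≤ (2 : ℝ) ^ (ε / 2 * m) := by
      refine le_trans (Nat.cast_le.2 Finset.card_image_le) (hF.trans ?_)
      rw [Real.rpow_def_of_pos (by norm_num)]
      refine Real.exp_le_exp.2 (le_trans ?_ (hcount.trans_eq (by ring)))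
      have hd0 : (0 : ℝ) ≤ d := Nat.cast_nonneg d
      have hdm : (d : ℝ) + 2 ≤ (m : ℝ) + 2 := by linarith [(Nat.cast_le (α := ℝ)).2 hd]
      exact mul_le_mul_of_nonneg_right (mul_le_mul_of_nonneg_left
        (pow_le_pow_left₀ (Real.log_nonneg (by linarith)) (Real.log_le_log (by linarith) hdm) k)
        hC.le) (by positivity)
    have h2 := h1.trans_le (mul_le_mul_of_nonneg_right hFle (by positivity))
    rw [← Real.rpow_natCast (2 : ℝ) r, ← Real.rpow_add (by norm_num),
      Real.rpow_lt_rpow_left_iff (by norm_num)] at h2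
    linarith
  · change ((P160R.toR Z)ᵀ * G * P160R.toR Z).det ≤ 2 at hdetZ
    have e : (P160R.toR Z)ᵀ * G * P160R.toR Z =
        (D ^ 2)⁻¹ • ((P160R.toR (A * Z))ᵀ * P160R.toR (A * Z)) := by
      rw [hUR, hG, Matrix.mul_smul, Matrix.smul_mul, transpose_mul]
      simp only [Matrix.mul_assoc]
    rw [e, det_smul, Fintype.card_fin, inv_pow, inv_mul_le_iff₀ (by positivity)] at hdetZ
    have e2 : (P160R.toR (A * Z))ᵀ * P160R.toR (A * Z) =
        ((A * Z)ᵀ * (A * Z)).map (Int.castRingHom ℝ) := by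
      rw [Matrix.map_mul (L := (A * Z)ᵀ) (M := A * Z)]; rfl
    rw [e2, ← RingHom.mapMatrix_apply, ← RingHom.map_det, eq_intCast] at hdetZ
    refine hdetZ.trans ?_
    rw [← pow_mul, ← Real.rpow_natCast D, Real.rpow_def_of_pos (by linarith),
      Real.rpow_def_of_pos (by norm_num)]
    have e3 : (2 : ℝ) = Real.exp (Real.log 2) := (Real.exp_log (by norm_num)).symm
    conv_lhs => arg 2; rw [e3]
    rw [← Real.exp_add]
    refine Real.exp_le_exp.2 ?_
    have hlD : 0 ≤ Real.log D := Real.log_nonneg hD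
    have hl2 : (1 / 2 : ℝ) ≤ Real.log 2 := by linarith [Real.log_two_gt_d9]
    have hr' : (r : ℝ) ≤ m := Nat.cast_le.2 hrd
    have h1 := mul_le_mul_of_nonneg_left hscale (show (0 : ℝ) ≤ Real.log 2 by linarith)
    push_cast
    nlinarith [mul_le_mul_of_nonneg_right hr' hlD,
      mul_le_mul_of_nonneg_right hl2 (mul_nonneg (Nat.cast_nonneg (α := ℝ) m) hlD)]
  · have := hAS (fun l => Z l c) p hp
    exact this

end Vale.Agent.P160R.Five
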