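import Vale.Agent.P160R.Five.Defs
import Vale.Agent.P160R.Family

/-!
# Few lattices are near every complement of a small lattice
-/

namespace Vale.Agent.P160R.Five

open Matrix Module Finset
open scoped Classical

variable {ι : Type} [Fintype ι] [DecidableEq ι]

/-- The real span of the columns. -/
noncomputable def colSpan {r : ℕ} (Z : Matrix ι (Fin r) ℤ) : Submodule ℝ (ι → ℝ) :=
  Submodule.span ℝ (Set.range fun c i => (Z i c : ℝ))

omit [Fintype ι] [DecidableEq ι] in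
lemma colSpan_eq {r : ℕ} (Z : Matrix ι (Fin r) ℤ) :
    colSpan Z = LinearMap.range (toR Z).mulVecLin := by
  rw [colSpan, Matrix.range_mulVecLin]
  rfl

lemma finrank_colSpan {r : ℕ} {Z : Matrix ι (Fin r) ℤ} (hZ : Function.Injective (toQ Z).mulVec) :
    finrank ℝ (colSpan Z) = r := by
  rw [colSpan_eq, LinearMap.finrank_range_of_inj (toR_mulVec_injective _ hZ),
    finrank_fintype_fun_eq_card, Fintype.card_fin]

omit [DecidableEq ι] in
/-- Two subspaces near a third share all but few dimensions. -/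
lemma finrank_common {U U' W : Submodule ℝ (ι → ℝ)} {a : ℝ}
    (h : (finrank ℝ (U ⊔ W : Submodule ℝ (ι → ℝ)) : ℝ) ≤
      (finrank ℝ (U ⊓ W : Submodule ℝ (ι → ℝ)) : ℝ) + a)
    (h' : (finrank ℝ (U' ⊔ W : Submodule ℝ (ι → ℝ)) : ℝ) ≤
      (finrank ℝ (U' ⊓ W : Submodule ℝ (ι → ℝ)) : ℝ) + a) :
    (finrank ℝ U : ℝ) ≤ finrank ℝ U' + 2 * a ∧
      (finrank ℝ U' : ℝ) ≤ finrank ℝ (U ⊓ U' : Submodule ℝ (ι → ℝ)) + 2 * a := by
  have cast_le : ∀ {X Y : Submodule ℝ (ι → ℝ)}, X ≤ Y → (finrank ℝ X : ℝ) ≤ finrank ℝ Y :=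
    fun hXY => Nat.cast_le.2 (Submodule.finrank_mono hXY)
  have h1 := cast_le (le_sup_left : U ≤ U ⊔ W)
  have h2 := cast_le (inf_le_right : U ⊓ W ≤ W)
  have h3 := cast_le (le_sup_right : W ≤ U' ⊔ W)
  have h4 := cast_le (le_sup_left : U' ≤ U' ⊔ W)
  have h5 := cast_le (le_sup_right : W ≤ U ⊔ W)
  have h6 := cast_le (inf_le_left : U' ⊓ W ≤ U')
  have hsum : ((finrank ℝ ((U ⊓ W) ⊔ (U' ⊓ W) : Submodule ℝ (ι → ℝ)) : ℝ)) +
      finrank ℝ ((U ⊓ W) ⊓ (U' ⊓ W) : Submodule ℝ (ι → ℝ)) =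
      (finrank ℝ (U ⊓ W : Submodule ℝ (ι → ℝ)) : ℝ) +
        finrank ℝ (U' ⊓ W : Submodule ℝ (ι → ℝ)) := by
    exact_mod_cast Submodule.finrank_sup_add_finrank_inf_eq (U ⊓ W) (U' ⊓ W)
  have h7 := cast_le (sup_le inf_le_right inf_le_right : (U ⊓ W) ⊔ (U' ⊓ W) ≤ W)
  have h8 := cast_le (inf_le_inf inf_le_left inf_le_left : (U ⊓ W) ⊓ (U' ⊓ W) ≤ U ⊓ U')
  constructor <;> linarith

/-- A sum of two orthogonal complements misses the common span. -/
lemma finrank_sup_kerL_add {r r' : ℕ} (Z : Matrix ι (Fin r) ℤ) (Z' : Matrix ι (Fin r') ℤ) :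
    finrank ℤ (kerL Zᵀ ⊔ kerL Z'ᵀ : Submodule ℤ (ι → ℤ)) +
      finrank ℝ (colSpan Z ⊓ colSpan Z' : Submodule ℝ (ι → ℝ)) ≤ Fintype.card ι := by
  set X := (kerL Zᵀ ⊔ kerL Z'ᵀ : Submodule ℤ (ι → ℤ))
  set A := basisMat X
  set C := (colSpan Z ⊓ colSpan Z' : Submodule ℝ (ι → ℝ))
  have hA := isBasisMat_basisMat X
  have horth : ∀ {s : ℕ} (Y : Matrix ι (Fin s) ℤ) (v : ι → ℤ), v ∈ kerL Yᵀ → ∀ u ∈ colSpan Y,
      (fun i => (v i : ℝ)) ⬝ᵥ u = 0 := by
    intro s Y v hv u hu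
    rw [colSpan_eq] at hu
    obtain ⟨g, rfl⟩ := hu
    have e : (toR Y)ᵀ *ᵥ (fun i => (v i : ℝ)) = 0 := by
      funext j
      have := congrArg (Int.cast : ℤ → ℝ) (congrFun (mem_kerL.1 hv) j)
      simpa [Matrix.mulVec, dotProduct, toR] using this
    rw [mulVecLin_apply, dotProduct_mulVec, ← mulVec_transpose, e, zero_dotProduct]
  have hcol : ∀ c, ∀ u ∈ C, (fun i => (A i c : ℝ)) ⬝ᵥ u = 0 := by
    intro c u hu
    obtain ⟨hu1, hu2⟩ := Submodule.mem_inf.1 hu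
    obtain ⟨v, hv, v', hv', he⟩ := Submodule.mem_sup.1 (hA.col_mem c)
    have : (fun i => (A i c : ℝ)) = (fun i => (v i : ℝ)) + fun i => (v' i : ℝ) := by
      funext i
      have := congrArg (Int.cast : ℤ → ℝ) (congrFun he i)
      simpa using this.symm
    rw [this, add_dotProduct, horth Z v hv u hu1, horth Z' v' hv' u hu2, add_zero]
  have hdisj : LinearMap.range (toR A).mulVecLin ⊓ C = ⊥ := by
    rw [Submodule.eq_bot_iff]
    intro x hx
    obtain ⟨hxA, hxC⟩ := Submodule.mem_inf.1 hx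
    obtain ⟨a, rfl⟩ := hxA
    refine dotProduct_self_eq_zero.1 ?_
    rw [mulVecLin_apply] at hxC ⊢
    rw [dotProduct_comm, dotProduct_mulVec]
    have : (toR A *ᵥ a) ᵥ* toR A = 0 := by
      funext c
      simpa [Matrix.vecMul, dotProduct, toR, mul_comm] using hcol c _ hxC
    rw [this, zero_dotProduct]
  have h1 := Submodule.finrank_sup_add_finrank_inf_eq (LinearMap.range (toR A).mulVecLin) C
  have h2 := Submodule.finrank_le (LinearMap.range (toR A).mulVecLin ⊔ C)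
  rw [hdisj, finrank_bot, LinearMap.finrank_range_of_inj (toR_injective hA.1),
    finrank_fintype_fun_eq_card, Fintype.card_fin] at h1
  rw [finrank_fintype_fun_eq_card] at h2
  omega

/-- The complement of an integral matrix has Gram determinant at most that of the matrix. -/
lemma gdet_kerL_le {r : ℕ} (Z : Matrix ι (Fin r) ℤ) (hZ : Function.Injective (toQ Z).mulVec) :
    gdet 1 (kerL Zᵀ) ≤ (((Zᵀ * Z).det : ℤ) : ℝ) := by
  have h1 : toR (1 : Matrix ι ι ℤ) = 1 := by simp [toR]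
  have h := gdet_dual 1 (by rw [h1]; exact PosDef.one) Zᵀ (by rwa [transpose_transpose])
  rw [h1, inv_one, Matrix.mul_one, det_one, mul_one] at h
  refine h.trans (le_of_eq ?_)
  rw [show (toR Zᵀ)ᵀ = toR Z from rfl, ← toR_mul]
  exact ((Int.castRingHom ℝ).map_det _).symm

/-- Few lattices `Λ` such that every complement of a small lattice is near one of them. -/
theorem near_family (η : ℝ) (hη : 0 < η) :
    ∃ N : ℕ, ∀ (ι : Type) [Fintype ι] [DecidableEq ι], N ≤ Fintype.card ι →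
      ∃ F : Finset (Submodule ℤ (ι → ℤ)),
        (F.card : ℝ) ≤ (2 : ℝ) ^ (η * (Fintype.card ι : ℝ) ^ 2) ∧
        ∀ (r : ℕ) (Z : Matrix ι (Fin r) ℤ), Function.Injective (toQ Z).mulVec →
          (((Zᵀ * Z).det : ℤ) : ℝ) ≤ (2 : ℝ) ^ (lBudget (Fintype.card ι) * Fintype.card ι) →
          ∃ Λ ∈ F, (finrank ℤ Λ : ℝ) + r ≤ Fintype.card ι + η * Fintype.card ι ∧
            (finrank ℤ (kerL Zᵀ ⊔ Λ : Submodule ℤ (ι → ℤ)) : ℝ) ≤
              finrank ℤ Λ + η * Fintype.card ι ∧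
            gdet 1 Λ ≤ (2 : ℝ) ^ (lBudget (Fintype.card ι) * Fintype.card ι) ∧
            gdet 1 (kerL Zᵀ ⊔ Λ) ≤
              (2 : ℝ) ^ (2 * (lBudget (Fintype.card ι) * Fintype.card ι)) := by
  obtain ⟨N, hN⟩ := small_det_family (η / 2) (by positivity)
  refine ⟨N, fun ι _ _ hι => ?_⟩
  obtain ⟨F₀, hF₀, hfam⟩ := hN ι hι
  set m := Fintype.card ι
  set Bd := (2 : ℝ) ^ (lBudget m * m)
  set Rep : Submodule ℝ (ι → ℝ) → Prop := fun W => ∃ (r : ℕ) (Z : Matrix ι (Fin r) ℤ),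
    Function.Injective (toQ Z).mulVec ∧ (((Zᵀ * Z).det : ℤ) : ℝ) ≤ Bd ∧
      (finrank ℝ (colSpan Z ⊔ W : Submodule ℝ (ι → ℝ)) : ℝ) ≤
        (finrank ℝ (colSpan Z ⊓ W : Submodule ℝ (ι → ℝ)) : ℝ) + η / 2 * m
  set lam : Submodule ℝ (ι → ℝ) → Submodule ℤ (ι → ℤ) := fun W =>
    if h : Rep W then kerL h.choose_spec.chooseᵀ else ⊥
  refine ⟨F₀.image lam, ?_, fun r Z hZ hdet => ?_⟩
  · refine (Nat.cast_le.2 card_image_le).trans (hF₀.trans (Real.rpow_le_rpow_of_exponent_le one_le_two ?_))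
    have : 0 ≤ η * (m : ℝ) ^ 2 := by positivity
    linarith
  obtain ⟨W, hWF, hW⟩ := hfam r Z (Matrix.mulVec_injective_iff.1 hZ) hdet
  have hrep : Rep W := ⟨r, Z, hZ, hdet, hW⟩
  refine ⟨lam W, mem_image_of_mem _ hWF, ?_⟩
  have hlam : lam W = kerL hrep.choose_spec.chooseᵀ := by simp only [lam, dif_pos hrep]
  obtain ⟨hi', hd', hW'⟩ := hrep.choose_spec.choose_spec
  set r' := hrep.choose
  set Z' := hrep.choose_spec.choose
  rw [hlam]
  have hk : finrank ℤ (kerL Z'ᵀ) + r' = m := finrank_kerL _ (by rwa [transpose_transpose])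
  have hk' : (finrank ℤ (kerL Z'ᵀ) : ℝ) + r' = m := by exact_mod_cast hk
  obtain ⟨h1, h2⟩ := finrank_common (U := colSpan Z) (U' := colSpan Z') (W := W) hW hW'
  rw [finrank_colSpan hZ, finrank_colSpan hi'] at h1
  rw [finrank_colSpan hi'] at h2
  refine ⟨by linarith, ?_, (gdet_kerL_le Z' hi').trans hd', ?_⟩
  · have h3 : (finrank ℤ (kerL Zᵀ ⊔ kerL Z'ᵀ : Submodule ℤ (ι → ℤ)) : ℝ) +
        finrank ℝ (colSpan Z ⊓ colSpan Z' : Submodule ℝ (ι → ℝ)) ≤ m := by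
      exact_mod_cast finrank_sup_kerL_add Z Z'
    linarith
  · calc gdet 1 (kerL Zᵀ ⊔ kerL Z'ᵀ)
        ≤ gdet 1 (kerL Zᵀ ⊔ kerL Z'ᵀ) * gdet 1 (kerL Zᵀ ⊓ kerL Z'ᵀ) :=
          le_mul_of_one_le_right (gdet_pos PosDef.one _).le (one_le_gdet _)
      _ ≤ gdet 1 (kerL Zᵀ) * gdet 1 (kerL Z'ᵀ) := gdet_submodular PosDef.one _ _
      _ ≤ Bd * Bd := mul_le_mul ((gdet_kerL_le Z hZ).trans hdet) ((gdet_kerL_le Z' hi').trans hd')
          (gdet_pos PosDef.one _).le (by positivity)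
      _ = (2 : ℝ) ^ (2 * (lBudget m * m)) := by
          rw [← Real.rpow_add two_pos]
          ring_nf

end Vale.Agent.P160R.Five
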