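import Vale.Agent.P160R.Five.Process.Step

/-!
# All but few rows are good
-/

namespace Vale.Agent.P160R.Five

open Matrix Module Finset
open scoped Classical

set_option linter.unusedSectionVars false

variable {ι : Type} [Fintype ι] [DecidableEq ι]

/-- The rows of `R` among the first `n`, in the fixed order. -/
private noncomputable def upto (R : Finset ι) (n : ℕ) : Finset ι :=
  R.filter fun l => (Fintype.equivFin ι l : ℕ) < n

/-- Every bad row among the first `n` costs a factor `m^(2L)` in the least height. -/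
private lemma pow_bad_le {L : ℕ} (hL : 1 ≤ L) (B : Matrix ι ι ℤ) (hm : 2 ≤ Fintype.card ι)
    (Λ : Submodule ℤ (ι → ℤ)) (R : Finset ι) (n : ℕ) :
    (Fintype.card ι : ℝ) ^
        (2 * L * ((upto R n).filter fun i => ¬ ∃ k, GoodAt L B Λ (before R i) i k).card) ≤
      phi L B Λ (upto R n) := by
  induction n with
  | zero =>
    have e : upto R 0 = ∅ := by simp [upto]
    rw [e]
    simpa [phi] using one_le_height (by omega : 1 ≤ Fintype.card ι) L (minLat L B Λ ∅)
  | succ n ih =>
    by_cases h : ∃ i ∈ R, (Fintype.equivFin ι i : ℕ) = n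
    · obtain ⟨i, hiR, hin⟩ := h
      have hni : i ∉ upto R n := by simp [upto, hin]
      have hins : upto R (n + 1) = insert i (upto R n) := by
        ext l
        simp only [upto, mem_filter, mem_insert]
        constructor
        · rintro ⟨hl, h⟩
          rcases Nat.lt_succ_iff_lt_or_eq.1 h with h | h
          · exact Or.inr ⟨hl, h⟩
          · exact Or.inl ((Fintype.equivFin ι).injective (Fin.ext (h.trans hin.symm)))
        · rintro (rfl | ⟨hl, h⟩)
          · exact ⟨hiR, by omega⟩
          · exact ⟨hl, by omega⟩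
      have hbef : before R i = upto R n := by
        ext l; simp [before, upto, Fin.lt_def, hin]
      rw [hins, filter_insert]
      by_cases hbad : ∃ k, GoodAt L B Λ (before R i) i k
      · rw [if_neg (not_not.2 hbad)]
        exact ih.trans (phi_mono L B Λ (subset_insert _ _) (by omega))
      · rw [if_pos hbad, card_insert_of_notMem fun h => hni (mem_of_mem_filter i h), Nat.mul_add,
          mul_one, pow_add, mul_comm]
        refine le_trans (mul_le_mul_of_nonneg_left ih (by positivity)) ?_
        refine (phi_step hL B hm Λ (upto R n) hni).resolve_right fun hg => hbad ?_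
        rw [hbef]; exact hg
    · have e : upto R (n + 1) = upto R n := by
        ext l
        simp only [upto, mem_filter]
        refine ⟨fun ⟨hl, h'⟩ => ⟨hl, ?_⟩, fun ⟨hl, h'⟩ => ⟨hl, by omega⟩⟩
        by_contra hc
        exact h ⟨l, hl, by omega⟩
      rwa [e]

/-- The rows in `E` enlarge the norm by at most `m`. -/
private lemma rowMat_norm_le {B : Matrix ι ι ℤ} (hB : IsSign B) (E : Finset ι) (x : ι → ℝ) :
    (toR (rowMat B E) *ᵥ x) ⬝ᵥ (toR (rowMat B E) *ᵥ x) ≤
      (Fintype.card ι : ℝ) ^ 2 * (x ⬝ᵥ x) := by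
  have h1 : ∀ l : E, (toR (rowMat B E) *ᵥ x) l * (toR (rowMat B E) *ᵥ x) l ≤
      (Fintype.card ι : ℝ) * (x ⬝ᵥ x) := fun l => by
    have := Finset.sum_mul_sq_le_sq_mul_sq univ (fun t => (B l.1 t : ℝ)) x
    have e1 : ∑ t, (B l.1 t : ℝ) ^ 2 = (Fintype.card ι : ℝ) := by
      rw [Finset.sum_congr rfl fun t _ => show (B l.1 t : ℝ) ^ 2 = 1 by
        rcases hB.2 l.1 t with h | h <;> simp [h]]
      simp
    rw [e1, sq] at this
    simpa [dotProduct, toR, rowMat, mulVec, sq] using this
  refine (Finset.sum_le_sum fun l _ => h1 l).trans ?_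
  rw [Finset.sum_const, nsmul_eq_mul, sq, mul_assoc]
  exact mul_le_mul_of_nonneg_right (by exact_mod_cast (Fintype.card_coe E).trans_le (card_le_univ E))
    (mul_nonneg (Nat.cast_nonneg _) (Finset.sum_nonneg fun t _ => mul_self_nonneg (x t)))

/-- All rows of `R`, exposed in order, except about `rank Λ + 2m/L`, are good. -/
theorem many_good_rows {L : ℕ} (hL : 1 ≤ L) {B : Matrix ι ι ℤ} (hB : IsSign B)
    (hm : 2 ≤ Fintype.card ι) (Λ : Submodule ℤ (ι → ℤ)) (R : Finset ι) :
    2 * (L : ℝ) * ((R.filter fun i => ¬ ∃ k, GoodAt L B Λ (before R i) i k).card : ℝ) *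
        Real.log (Fintype.card ι) ≤
      (2 * (L : ℝ) + 3) * (finrank ℤ Λ : ℝ) * Real.log (Fintype.card ι) +
        Real.log (gdet 1 Λ) := by
  have hm1 : (1 : ℝ) ≤ Fintype.card ι := by exact_mod_cast (by omega : 1 ≤ Fintype.card ι)
  have hR : upto R (Fintype.card ι) = R := filter_true_of_mem fun l _ => (Fintype.equivFin ι l).2
  have h := pow_bad_le hL B hm Λ R (Fintype.card ι)
  rw [hR] at h
  have h2 : phi L B Λ R ≤ (Fintype.card ι : ℝ) ^ ((2 * L + 3) * finrank ℤ Λ) * gdet 1 Λ := by
    refine (phi_le L B Λ R le_rfl).trans ?_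
    have hr : finrank ℤ (imgL B Λ R) ≤ finrank ℤ Λ := finrank_mapL_le _ _
    calc height (Fintype.card ι) L (imgL B Λ R)
        ≤ (Fintype.card ι : ℝ) ^ (2 * L * finrank ℤ Λ) *
            (((Fintype.card ι : ℝ) ^ 2) ^ finrank ℤ (imgL B Λ R) * gdet 1 Λ) :=
          mul_le_mul (pow_le_pow_right₀ hm1 (Nat.mul_le_mul_left _ hr))
            (gdet_mapL_le (rowMat B R) (rowMat_norm_le hB R) Λ) (gdet_pos PosDef.one _).le
            (by positivity)
      _ ≤ (Fintype.card ι : ℝ) ^ ((2 * L + 3) * finrank ℤ Λ) * gdet 1 Λ := by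
          rw [← mul_assoc, ← pow_mul, ← pow_add]
          exact mul_le_mul_of_nonneg_right (pow_le_pow_right₀ hm1 (by rw [add_mul]; omega))
            (gdet_pos PosDef.one _).le
  have h3 := Real.log_le_log (pow_pos (lt_of_lt_of_le one_pos hm1) _) (h.trans h2)
  rw [Real.log_mul (pow_pos (lt_of_lt_of_le one_pos hm1) _).ne' (gdet_pos PosDef.one _).ne',
    Real.log_pow, Real.log_pow] at h3
  push_cast at h3
  exact h3

end Vale.Agent.P160R.Five
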