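import Vale.Agent.P160R.Five.Defs

/-!
# Parameters and prime data of the rare event
-/

namespace Vale.Agent.P160R.Five

open Matrix Module Finset
open scoped Classical

variable {ι : Type} [Fintype ι] [DecidableEq ι]

/-- The size conditions used in the assembly of the rare event. -/
lemma rare_size (δ C : ℝ) (hδ : 0 < δ) :
    ∃ N : ℕ, 2 ≤ N ∧ ∀ m : ℕ, N ≤ m →
      C ≤ δ * m ∧ 1 ≤ δ * Real.log m ∧ lBudget m * Real.log 2 ≤ δ * Real.log m := by
  have hlog : Filter.Tendsto (fun m : ℕ => Real.log (m : ℝ)) Filter.atTop Filter.atTop :=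
    Real.tendsto_log_atTop.comp tendsto_natCast_atTop_atTop
  obtain ⟨N, hN⟩ := Filter.eventually_atTop.1
    ((((tendsto_natCast_atTop_atTop (R := ℝ)).eventually_ge_atTop (C / δ)).and
      (hlog.eventually_ge_atTop (max 1 (1 / δ)))).and
      (((Real.isLittleO_pow_log_id_atTop (n := 2)).comp_tendsto hlog).def hδ))
  refine ⟨max N 2, le_max_right _ _, fun m hm => ?_⟩
  obtain ⟨⟨h1, h2⟩, h3⟩ := hN m (le_of_max_le_left hm)
  rw [div_le_iff₀ hδ] at h1
  have h2' : 1 / δ ≤ Real.log (m : ℝ) := le_trans (le_max_right _ _) h2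
  rw [div_le_iff₀ hδ] at h2'
  refine ⟨by linarith, by linarith, ?_⟩
  simp only [Function.comp_apply, id_eq, Real.norm_eq_abs] at h3
  rw [abs_of_nonneg (sq_nonneg _), abs_of_nonneg (le_trans zero_le_one
    (le_trans (le_max_left _ _) h2))] at h3
  refine le_trans ?_ h3
  rw [lBudget]
  exact mul_le_of_le_one_right (sq_nonneg _)
    (le_trans Real.log_two_lt_d9.le (by norm_num))

/-- The logarithm of a determinant under the allowance. -/
lemma log_le_budget {δ x : ℝ} {m : ℕ} {a : ℝ} (ha : 0 ≤ a) (hx : 0 < x)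
    (hb : lBudget m * Real.log 2 ≤ δ * Real.log m)
    (h : x ≤ (2 : ℝ) ^ (a * (lBudget m * m))) : Real.log x ≤ a * (δ * m * Real.log m) := by
  refine (Real.log_le_log hx h).trans ?_
  rw [Real.log_rpow (by norm_num), mul_assoc]
  refine mul_le_mul_of_nonneg_left ?_ ha
  have := mul_le_mul_of_nonneg_right hb (Nat.cast_nonneg (α := ℝ) m)
  linarith

/-- The gcd of the columns of a small lattice turned into one vector modulo all good primes. -/
lemma exists_combined_vector {B : Matrix ι ι ℤ} {T : Finset ℕ} {w : ℕ → ι → ℤ}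
    (hker : KerPrimes T w B) {r : ℕ} (Z : Matrix ι (Fin r) ℤ) (hd : 0 < (Zᵀ * Z).det)
    (hdvd : ∀ p ∈ T, ∀ c, (p : ℤ) ∣ Zᵀ.mulVec (w p) c) :
    ∃ (T₁ : Finset ℕ) (v : ι → ℤ), T₁ ⊆ T ∧ KerPrimes T₁ (fun _ => v) B ∧ v ∈ kerL Zᵀ ∧
      ∑ p ∈ T \ T₁, Real.log (p : ℝ) ≤ Real.log ((Zᵀ * Z).det : ℝ) := by
  set Δ := (Zᵀ * Z).det with hΔ
  set T₁ := T.filter fun p : ℕ => ¬ (p : ℤ) ∣ Δ with hT₁
  have hpr : ∀ p ∈ T₁, p.Prime := fun p hp => (hker p (mem_filter.1 hp).1).1
  have hcop : Set.Pairwise (T₁ : Set ℕ) (Function.onFun Nat.Coprime id) := fun p hp q hq h =>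
    (Nat.coprime_primes (hpr p hp) (hpr q hq)).2 h
  choose w' hw' using fun l : ι => (⟨_, (Nat.chineseRemainderOfFinset
    (fun p => ((w p l) % (p : ℤ)).toNat) id T₁ (fun p hp => (hpr p hp).ne_zero) hcop).2⟩ :
      ∃ k : ℕ, ∀ p ∈ T₁, k ≡ ((w p l) % (p : ℤ)).toNat [MOD p])
  have hmod : ∀ p ∈ T₁, ∀ l, (p : ℤ) ∣ (w' l : ℤ) - w p l := by
    intro p hp l
    have h1 := Int.natCast_modEq_iff.2 (hw' l p hp)
    rw [Int.toNat_of_nonneg (Int.emod_nonneg _ (by exact_mod_cast (hpr p hp).ne_zero))] at h1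
    exact Int.modEq_iff_dvd.1 ((h1.trans (Int.mod_modEq _ _)).symm)
  set z : Fin r → ℤ := (Zᵀ * Z).adjugate.mulVec (Zᵀ.mulVec fun l => (w' l : ℤ))
  set v : ι → ℤ := Δ • (fun l => (w' l : ℤ)) - Z.mulVec z with hv
  have hvw : ∀ p ∈ T₁, ∀ l, (p : ℤ) ∣ v l - Δ * w p l := by
    intro p hp l
    have hZw : ∀ c, (p : ℤ) ∣ Zᵀ.mulVec (fun l => (w' l : ℤ)) c := by
      intro c
      have e : Zᵀ.mulVec (fun l => (w' l : ℤ)) c =
          Zᵀ.mulVec (w p) c + ∑ l, Zᵀ c l * ((w' l : ℤ) - w p l) := by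
        simp only [mulVec, dotProduct, ← Finset.sum_add_distrib]
        exact sum_congr rfl fun _ _ => by ring
      rw [e]
      exact dvd_add (hdvd p (mem_filter.1 hp).1 c)
        (dvd_sum fun l _ => dvd_mul_of_dvd_right (hmod p hp l) _)
    have hz : ∀ c, (p : ℤ) ∣ z c := fun c => by
      simp only [z]
      rw [mulVec, dotProduct]
      exact dvd_sum fun d _ => dvd_mul_of_dvd_right (hZw d) _
    have e : v l - Δ * w p l = Δ * ((w' l : ℤ) - w p l) - Z.mulVec z l := by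
      simp only [hv, Pi.sub_apply, Pi.smul_apply, smul_eq_mul]
      ring
    rw [e, mulVec, dotProduct]
    exact dvd_sub (dvd_mul_of_dvd_right (hmod p hp l) _)
      (dvd_sum fun c _ => dvd_mul_of_dvd_right (hz c) _)
  refine ⟨T₁, v, filter_subset _ _, fun p hp => ?_, ?_, ?_⟩
  · obtain ⟨hpT, hpΔ⟩ := mem_filter.1 hp
    obtain ⟨h1, h2, ⟨i, hi⟩, h4⟩ := hker p hpT
    refine ⟨h1, h2, ⟨i, fun hvi => ?_⟩, fun j => ?_⟩
    · have h5 := dvd_sub hvi (hvw p hp i)
      rw [sub_sub_cancel] at h5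
      exact (((Nat.prime_iff_prime_int.1 h1).dvd_mul).1 h5).elim hpΔ hi
    · have e : B.mulVec v j = Δ * B.mulVec (w p) j + ∑ l, B j l * (v l - Δ * w p l) := by
        simp only [mulVec, dotProduct, Finset.mul_sum, ← Finset.sum_add_distrib]
        exact sum_congr rfl fun _ _ => by ring
      rw [e]
      exact dvd_add (dvd_mul_of_dvd_right (h4 j) _)
        (dvd_sum fun l _ => dvd_mul_of_dvd_right (hvw p hp l) _)
  · rw [mem_kerL, hv, mulVec_sub, mulVec_smul, mulVec_mulVec, mulVec_mulVec, mul_adjugate,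
      smul_mulVec, one_mulVec, ← hΔ, sub_self]
  · have hsub : T \ T₁ ⊆ T.filter fun p : ℕ => (p : ℤ) ∣ Δ := fun p hp => by
      simp only [hT₁, mem_sdiff, mem_filter, not_and, not_not] at hp
      exact mem_filter.2 ⟨hp.1, hp.2 hp.1⟩
    have hprod : (∏ p ∈ T \ T₁, p) ∣ Δ.natAbs := by
      refine Finset.prod_primes_dvd _ (fun p hp => ?_) (fun p hp => ?_)
      · exact (hker p (mem_sdiff.1 hp).1).1.prime
      · exact Int.natCast_dvd.1 (mem_filter.1 (hsub hp)).2
    rw [← Real.log_prod (fun p hp => by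
      exact_mod_cast (hker p (mem_sdiff.1 hp).1).1.ne_zero)]
    refine Real.log_le_log (prod_pos fun p hp => by
      exact_mod_cast (hker p (mem_sdiff.1 hp).1).1.pos) ?_
    have h1 := Nat.le_of_dvd (Int.natAbs_pos.2 hd.ne') hprod
    have h2 : ((Δ.natAbs : ℕ) : ℝ) = (Δ : ℝ) := by
      rw [Nat.cast_natAbs, abs_of_pos hd]
    rw [← h2, ← Nat.cast_prod]
    exact_mod_cast h1

/-- The gram determinant of independent integer columns is positive. -/
lemma gram_det_pos {r : ℕ} {Z : Matrix ι (Fin r) ℤ} (hZ : Function.Injective (toQ Z).mulVec) :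
    0 < (Zᵀ * Z).det := by
  have h := (gram_posDef (PosDef.one (n := ι) (R := ℝ)) (toR_mulVec_injective _ hZ)).det_pos
  rw [Matrix.mul_one] at h
  have e : (toR (Zᵀ * Z)).det = (((Zᵀ * Z).det : ℤ) : ℝ) :=
    ((Int.castRingHom ℝ).map_det _).symm
  rw [toR_mul] at e
  have h' : (0 : ℝ) < (((Zᵀ * Z).det : ℤ) : ℝ) := e ▸ h
  exact_mod_cast h'

/-- Balanced blocks. -/
lemma exists_blocks {G : ℕ} (hG : 0 < G) :
    ∃ part : ι → Fin G, ∀ g, ((univ.filter fun l => part l = g).card : ℝ) ≤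
      (Fintype.card ι : ℝ) / G + 1 := by
  refine ⟨fun l => ⟨(Fintype.equivFin ι l : ℕ) % G, Nat.mod_lt _ hG⟩, fun g => ?_⟩
  have h : (univ.filter fun l => (⟨(Fintype.equivFin ι l : ℕ) % G, Nat.mod_lt _ hG⟩ : Fin G) = g).card
      ≤ (range (Fintype.card ι / G + 1)).card := by
    refine card_le_card_of_injOn (fun l => (Fintype.equivFin ι l : ℕ) / G) (fun l _ => ?_) ?_
    · simp only [coe_range, Set.mem_Iio]
      exact Nat.lt_succ_of_le (Nat.div_le_div_right (Fintype.equivFin ι l).2.le)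
    · intro a ha b hb hab
      simp only [coe_filter, mem_univ, true_and, Set.mem_setOf_eq, Fin.ext_iff] at ha hb
      refine (Fintype.equivFin ι).injective (Fin.ext ?_)
      have h1 := Nat.div_add_mod (Fintype.equivFin ι a : ℕ) G
      have h2 := Nat.div_add_mod (Fintype.equivFin ι b : ℕ) G
      simp only at hab
      rw [hab] at h1
      omega
  rw [card_range] at h
  calc ((univ.filter fun l => (⟨(Fintype.equivFin ι l : ℕ) % G, Nat.mod_lt _ hG⟩ : Fin G) = g).card : ℝ)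
      ≤ ((Fintype.card ι / G + 1 : ℕ) : ℝ) := Nat.cast_le.2 h
    _ ≤ _ := by push_cast; linarith [Nat.cast_div_le (m := Fintype.card ι) (n := G) (α := ℝ)]

end Vale.Agent.P160R.Five
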