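import Vale.Agent.P160R.Five.Process
import Vale.Agent.P160R.Five.Blocks
import Vale.Agent.P160R.Five.Claim
import Vale.Agent.P160R.Five.RareParam

/-!
# A bad matrix has many good rows of small lattices on one block
-/

namespace Vale.Agent.P160R.Five

open Matrix Module Finset
open scoped Classical

variable {ι : Type} [Fintype ι] [DecidableEq ι]

/-- Most rows are good. -/
lemma good_rows_count {ε η δ : ℝ} (hε : 0 < ε) (hη : 0 ≤ η) (hδ : 0 < δ) {G L a : ℕ}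
    (hL : 1 ≤ L) (hGε : 8 / ε ≤ G) (hLε : 24 / ε ≤ L) (hG : 0 < G) (hη1 : η ≤ ε / 32)
    (hδ1 : δ ≤ ε / 32) {B : Matrix ι ι ℤ} (hB : IsSign B) (hm : 2 ≤ Fintype.card ι)
    {J : Finset ι} (hJ : (J.card : ℝ) ≤ (Fintype.card ι : ℝ) / G + 1)
    (ha : (a : ℝ) ≤ ε / 8 * Fintype.card ι + 1) (hbigm : 32 / ε ≤ (Fintype.card ι : ℝ))
    (hlog : 1 ≤ δ * Real.log (Fintype.card ι))
    (hbud : lBudget (Fintype.card ι) * Real.log 2 ≤ δ * Real.log (Fintype.card ι))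
    {Λ : Submodule ℤ (ι → ℤ)}
    (hrk : (finrank ℤ Λ : ℝ) + ε / 2 * Fintype.card ι ≤ Fintype.card ι + η * Fintype.card ι)
    (hgΛ : gdet 1 Λ ≤ (2 : ℝ) ^ (lBudget (Fintype.card ι) * Fintype.card ι)) :
    a ≤ (Jᶜ.filter fun i => ∃ k, GoodAt L B Λ (before Jᶜ i) i k).card := by
  set m := Fintype.card ι with hmdef
  set lm := Real.log (m : ℝ) with hlm
  have hm2 : (2 : ℝ) ≤ m := by exact_mod_cast hm
  have hlm0 : 0 < lm := Real.log_pos (by linarith)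
  have hL1 : (1 : ℝ) ≤ L := by exact_mod_cast hL
  have hG0 : (0 : ℝ) < G := by exact_mod_cast hG
  have hproc := many_good_rows hL hB hm Λ Jᶜ
  have hcard := card_filter_add_card_filter_not (s := Jᶜ)
    (fun i => ∃ k, GoodAt L B Λ (before Jᶜ i) i k)
  have hgl : Real.log (gdet 1 Λ) ≤ δ * m * lm := by
    refine (log_le_budget zero_le_one (gdet_pos PosDef.one _) hbud ?_).trans (le_of_eq (one_mul _))
    rwa [one_mul]
  rw [← hmdef, ← hlm] at hproc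
  set f : ℝ := (finrank ℤ Λ : ℝ) with hf
  have hf0 : 0 ≤ f := Nat.cast_nonneg _
  set ng := ((Jᶜ.filter fun i => ¬ ∃ k, GoodAt L B Λ (before Jᶜ i) i k).card : ℝ)
  have hng : 2 * (L : ℝ) * ng ≤ (2 * L + 3) * f + δ * m := by
    refine le_of_mul_le_mul_right ?_ hlm0
    linarith
  have hcardR : ((Jᶜ.filter fun i => ∃ k, GoodAt L B Λ (before Jᶜ i) i k).card : ℝ) + ng =
      m - J.card := by
    rw [← Nat.cast_sub (card_le_univ J), ← card_compl]
    simp only [ng]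
    exact_mod_cast hcard
  have hJ1 : (J.card : ℝ) ≤ ε / 8 * m + 1 := by
    refine hJ.trans (add_le_add ?_ le_rfl)
    rw [div_le_iff₀ hε] at hGε
    rw [div_le_iff₀ hG0]
    nlinarith
  have hη1' : η ≤ 1 / 2 := by
    by_contra h
    nlinarith [not_le.1 h]
  rw [div_le_iff₀ hε] at hLε
  have hng2 : ng ≤ m * (1 - ε / 2 + η) + ε / 8 * m + δ * m := by
    refine le_of_mul_le_mul_left ?_ (show (0 : ℝ) < 2 * L by linarith)
    have h3 : 3 * f ≤ 2 * L * (ε / 8 * m) := by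
      nlinarith [mul_le_mul_of_nonneg_right hLε (show (0 : ℝ) ≤ m by linarith),
        mul_le_mul_of_nonneg_left hη1' (show (0 : ℝ) ≤ m by linarith)]
    have h4 : δ * m ≤ 2 * L * (δ * m) := le_mul_of_one_le_left (by positivity) (by linarith)
    have h5 := mul_le_mul_of_nonneg_left (show f ≤ m * (1 - ε / 2 + η) by linarith)
      (show (0 : ℝ) ≤ 2 * L by linarith)
    linarith
  rw [div_le_iff₀ hε] at hbigm
  have h6 := mul_le_mul_of_nonneg_right hη1 (show (0 : ℝ) ≤ m by linarith)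
  have h7 := mul_le_mul_of_nonneg_right hδ1 (show (0 : ℝ) ≤ m by linarith)
  refine Nat.le_of_lt_succ ?_
  have h8 : (a : ℝ) <
      (Jᶜ.filter fun i => ∃ k, GoodAt L B Λ (before Jᶜ i) i k).card + 1 := by linarith
  exact_mod_cast h8

/-- The budgets of the claim fit the block. -/
lemma claim_budget {η δ m lm e g s W lost ξ : ℝ} {L : ℕ} (hη : 0 ≤ η) (hδ : 0 < δ)
    (hL : (1 : ℝ) ≤ L) (hu0 : 0 ≤ m * lm) (hsmall : 40 * (L : ℝ) * η + 6 * δ ≤ ξ)
    (he : e ≤ η * m) (hLm : 40 * (L : ℝ) ≤ δ * m) (hlog : 1 ≤ δ * lm) (hm : 1 ≤ m)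
    (hD : g ≤ δ * lm) (hs : s ≤ 2 * (δ * m * lm))
    (hW : W ≤ 1 + 4 * m * g + 40 * L * (e + 1) * lm + 2 * s)
    (hlost : lost ≤ 40 * L * (e + 1) * lm + 2 * s) :
    W ≤ 2 * (ξ * (m * lm)) ∧ lost ≤ ξ * (m * lm) := by
  have hlm0 : 0 ≤ lm := by
    by_contra h
    nlinarith [not_le.1 h]
  have h1 := mul_le_mul_of_nonneg_left he (show (0 : ℝ) ≤ 40 * L by linarith)
  have h2 := mul_le_mul_of_nonneg_right (show 40 * (L : ℝ) * (e + 1) ≤
    (40 * L * η + δ) * m by linarith) hlm0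
  have hone : (1 : ℝ) ≤ δ * (m * lm) := by nlinarith
  have hD4 := mul_le_mul_of_nonneg_left hD (show (0 : ℝ) ≤ 4 * m by linarith)
  have h3 := mul_le_mul_of_nonneg_right hsmall hu0
  have hd := mul_nonneg hδ.le hu0
  have hLη := mul_nonneg (mul_nonneg (show (0 : ℝ) ≤ 40 * L by linarith) hη) hu0
  constructor <;> linarith

/-- The deterministic part of the rare event. -/
theorem rare_case {θ ε η δ : ℝ} (hθ : 0 < θ) (hθ1 : θ ≤ 1) (hε : 0 < ε)
    (hη : 0 ≤ η) (hδ : 0 < δ) {G L c e a : ℕ} (hG : 0 < G) (hL : 1 ≤ L)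
    (hGε : 8 / ε ≤ G) (hLε : 24 / ε ≤ L) (hη1 : η ≤ ε / 32) (hδ1 : δ ≤ ε / 32)
    (hδθ : δ ≤ θ / 20) (hsmall : 40 * (L : ℝ) * η + 6 * δ ≤ θ / (8 * G))
    {B : Matrix ι ι ℤ} (hB : IsSign B) (hdet : B.det ≠ 0) (hm : 2 ≤ Fintype.card ι)
    (hc : (c : ℝ) ≤ θ * Fintype.card ι / G) (he : (e : ℝ) ≤ η * Fintype.card ι)
    (he' : ∀ n : ℕ, (n : ℝ) ≤ η * Fintype.card ι → n ≤ e)
    (ha : (a : ℝ) ≤ ε / 8 * Fintype.card ι + 1) (hbigm : 32 / ε ≤ (Fintype.card ι : ℝ))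
    (hLm : 40 * (L : ℝ) ≤ δ * Fintype.card ι)
    (hlog : 1 ≤ δ * Real.log (Fintype.card ι))
    (hbud : lBudget (Fintype.card ι) * Real.log 2 ≤ δ * Real.log (Fintype.card ι))
    {D : ℝ} (hD : 1 ≤ D) (hDδ : Real.log D ≤ δ * Real.log (Fintype.card ι))
    (part : ι → Fin G)
    (hpart : ∀ g, ((univ.filter fun l => part l = g).card : ℝ) ≤
      (Fintype.card ι : ℝ) / G + 1)
    {T : Finset ℕ} {w : ℕ → ι → ℤ} (hker : KerPrimes T w B)
    (hT : θ * Fintype.card ι ≤ T.card) {r : ℕ} {Z : Matrix ι (Fin r) ℤ}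
    (hZ : Function.Injective (toQ Z).mulVec) (hr : ε / 2 * Fintype.card ι ≤ r)
    (hZdet : (((Zᵀ * Z).det : ℤ) : ℝ) ≤
      (2 : ℝ) ^ (lBudget (Fintype.card ι) * Fintype.card ι))
    (hZT : ∀ p ∈ T, ∀ d, (p : ℤ) ∣ Zᵀ.mulVec (w p) d)
    {Λ : Submodule ℤ (ι → ℤ)}
    (hrk : (finrank ℤ Λ : ℝ) + r ≤ Fintype.card ι + η * Fintype.card ι)
    (hsup : (finrank ℤ (kerL Zᵀ ⊔ Λ : Submodule ℤ (ι → ℤ)) : ℝ) ≤
      finrank ℤ Λ + η * Fintype.card ι)
    (hgΛ : gdet 1 Λ ≤ (2 : ℝ) ^ (lBudget (Fintype.card ι) * Fintype.card ι))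
    (hgsup : gdet 1 (kerL Zᵀ ⊔ Λ) ≤
      (2 : ℝ) ^ (2 * (lBudget (Fintype.card ι) * Fintype.card ι))) :
    ∃ g : Fin G, c ≤ (univ.filter fun l => part l = g : Finset ι).card ∧
      ∃ A : Finset ι, A ⊆ (univ.filter fun l => part l = g : Finset ι)ᶜ ∧ a ≤ A.card ∧
        ∀ i ∈ A, GoodCheap L D ((univ.filter fun l => part l = g : Finset ι).card + e - c)
          B Λ (univ.filter fun l => part l = g) i := by
  set m := Fintype.card ι with hmdef
  set lm := Real.log (m : ℝ) with hlm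
  have hm2 : (2 : ℝ) ≤ m := by exact_mod_cast hm
  have hlm0 : 0 < lm := Real.log_pos (by linarith)
  have hG0 : (0 : ℝ) < G := by exact_mod_cast hG
  have hL1 : (1 : ℝ) ≤ L := by exact_mod_cast hL
  have hu0 : 0 ≤ (m : ℝ) * lm := mul_nonneg (Nat.cast_nonneg _) hlm0.le
  have hgram := gram_det_pos hZ
  obtain ⟨T₁, v, hT₁, hker₁, hvZ, hlost⟩ := exists_combined_vector hker Z hgram hZT
  have hΔ : Real.log (((Zᵀ * Z).det : ℤ) : ℝ) ≤ δ * m * lm := by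
    refine (log_le_budget zero_le_one (by exact_mod_cast hgram) hbud ?_).trans (le_of_eq (one_mul _))
    rwa [one_mul]
  have hsumT : θ * (9 / 10) * ((m : ℝ) * lm) ≤ ∑ p ∈ T, Real.log (p : ℝ) := by
    refine le_trans ?_ ((Finset.sum_le_sum (f := fun _ => (9 / 10 : ℝ) * lm)) fun p hp => ?_)
    · rw [sum_const, nsmul_eq_mul]
      have := mul_le_mul_of_nonneg_right hT (show (0 : ℝ) ≤ 9 / 10 * lm by linarith)
      linarith
    · have h := Real.log_le_log (Real.rpow_pos_of_pos (by linarith) _) (hker p hp).2.1.le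
      rwa [Real.log_rpow (by linarith)] at h
  have hsumT₁ : (θ * (9 / 10) - δ) * ((m : ℝ) * lm) ≤ ∑ p ∈ T₁, Real.log (p : ℝ) := by
    have := Finset.sum_sdiff (f := fun p : ℕ => Real.log (p : ℝ)) hT₁
    linarith
  set x := θ / (8 * G) * ((m : ℝ) * lm) with hx
  have hbig : 2 * (G : ℝ) * x + (G : ℝ) * c * Real.log m / 2 < ∑ p ∈ T₁, Real.log (p : ℝ) := by
    refine lt_of_lt_of_le ?_ hsumT₁
    have h1 : (G : ℝ) * c ≤ θ * m := by
      rw [le_div_iff₀ hG0] at hc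
      linarith
    have h2 := mul_le_mul_of_nonneg_right h1 hlm0.le
    have h3 : 2 * (G : ℝ) * x = θ / 4 * ((m : ℝ) * lm) := by
      rw [hx]; field_simp; ring
    have h4 : 0 < (θ / 10) * ((m : ℝ) * lm) :=
      mul_pos (by linarith) (mul_pos (by linarith) hlm0)
    have h5 := mul_le_mul_of_nonneg_right hδθ hu0
    rw [h3, ← hlm]
    linarith
  obtain ⟨g, hg⟩ := exists_good_block part hB hdet hker₁ (by positivity) hbig
  set J : Finset ι := univ.filter fun l => part l = g with hJ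
  have hcJ : c ≤ J.card := by
    have h := hg T₁ subset_rfl (by simp; positivity) ⊥
      (fun u hu p _ => by rw [(Submodule.mem_bot ℤ).1 hu]; simp)
      (by rw [gdet_bot, Real.log_one]; positivity)
    simpa using le_trans (Nat.le_add_left _ _) h
  refine ⟨g, hcJ, Jᶜ.filter fun i => ∃ k, GoodAt L B Λ (before Jᶜ i) i k,
    filter_subset _ _, ?_, fun i hi => ?_⟩
  · exact good_rows_count hε hη hδ hL hGε hLε hG hη1 hδ1 hB hm (hpart g) ha hbigm hlog hbud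
      (le_trans (add_le_add le_rfl hr) hrk) hgΛ
  obtain ⟨hiR, k, hk⟩ := mem_filter.1 hi
  refine ⟨k, hk, fun U hU hdU => ?_⟩
  set Λ₂ := kerL Zᵀ ⊔ Λ
  have hrk₂ : finrank ℤ Λ₂ ≤ finrank ℤ Λ + e := by
    rcases le_or_gt (finrank ℤ Λ₂) (finrank ℤ Λ) with h | h
    · omega
    · have := he' (finrank ℤ Λ₂ - finrank ℤ Λ) (by rw [Nat.cast_sub h.le]; linarith)
      omega
  obtain ⟨T₃, hT₃, W, hann, hrkW, hgW, hlostW⟩ := claim_dense hL hB hm
    (show Λ ≤ Λ₂ from le_sup_right) hrk₂ (T := T₁) (v := v) (le_sup_left (b := Λ) hvZ)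
    (fun p hp => ⟨(hker₁ p hp).1, (hker₁ p hp).2.2⟩) J (before Jᶜ i) hk.1 hk.2.1 hD U hU hdU
  have hgs : Real.log (gdet 1 Λ₂) ≤ 2 * (δ * m * lm) :=
    log_le_budget (by norm_num) (gdet_pos PosDef.one _) hbud hgsup
  obtain ⟨hW1, hW2⟩ := claim_budget hη hδ hL1 hu0 hsmall he hLm hlog (show (1 : ℝ) ≤ m by linarith)
    hDδ hgs hgW hlostW
  have hWc := hg T₃ hT₃ hW2 W hann hW1
  change finrank ℤ (mapL (blockProj J (finrank ℤ (minLat (4 * L) B Λ (before Jᶜ i)))) U) ≤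
    J.card + e - c
  omega

end Vale.Agent.P160R.Five
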