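import Vale.Agent.P160R.Five.Cost
import Vale.Agent.P160R.Five.Extract
import Vale.Agent.P160R.Five.Near
import Vale.Agent.P160R.Five.RareCase
import Vale.Agent.P160R.Basic

/-!
# Cube-rich annihilators of many medium primes are rare
-/

namespace Vale.Agent.P160R.Five

open Matrix Module Finset
open scoped Classical

/-- The counting inequality of the union bound. -/
lemma rare_union_le {κ η : ℝ} {m G : ℕ} (hκ : 8 ≤ κ * (m : ℝ)) (hη : η ≤ κ)
    (hG : (G : ℝ) ≤ (2 : ℝ) ^ (m : ℝ)) {F : ℝ} (hF : F ≤ (2 : ℝ) ^ (η * (m : ℝ) ^ 2))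
    (hF0 : 0 ≤ F) :
    (G : ℝ) * F * (2 : ℝ) ^ (m : ℝ) * (2 : ℝ) ^ (-(2 * κ * (m : ℝ) ^ 2)) ≤
      (2 : ℝ) ^ (-2 * (m : ℝ)) := by
  calc (G : ℝ) * F * (2 : ℝ) ^ (m : ℝ) * (2 : ℝ) ^ (-(2 * κ * (m : ℝ) ^ 2))
      ≤ (2 : ℝ) ^ (m : ℝ) * (2 : ℝ) ^ (η * (m : ℝ) ^ 2) * (2 : ℝ) ^ (m : ℝ) *
          (2 : ℝ) ^ (-(2 * κ * (m : ℝ) ^ 2)) := by gcongr
    _ = (2 : ℝ) ^ (η * (m : ℝ) ^ 2 + 2 * m - 2 * κ * (m : ℝ) ^ 2) := by
        rw [← Real.rpow_add (by norm_num), ← Real.rpow_add (by norm_num),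
          ← Real.rpow_add (by norm_num)]
        ring_nf
    _ ≤ _ := by
        refine Real.rpow_le_rpow_of_exponent_le (by norm_num) ?_
        have hm : (0 : ℝ) ≤ m := Nat.cast_nonneg _
        nlinarith [mul_le_mul_of_nonneg_right hη (sq_nonneg (m : ℝ)),
          mul_le_mul_of_nonneg_right hκ hm]

/-- A nonsingular sign matrix rarely has a cube-rich annihilator of linearly many primes. -/
theorem bad_rare (θ ε : ℝ) (hθ : 0 < θ) (hε : 0 < ε) :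
    ∃ N : ℕ, ∀ (ι : Type) [Fintype ι] [DecidableEq ι], N ≤ Fintype.card ι →
      Pr (fun ω : Sym2 ι → Bool => (symM ℤ ω).det ≠ 0 ∧ Bad θ ε (symM ℤ ω)) ≤
        (2 : ℝ) ^ (-2 * (Fintype.card ι : ℝ)) := by
  set θ' := min θ 1 with hθ'
  have hθ0 : 0 < θ' := lt_min hθ one_pos
  set G := ⌈8 / ε⌉₊ + 1
  set L := ⌈24 / ε⌉₊ + 1
  have hGε : 8 / ε ≤ (G : ℝ) := (Nat.le_ceil _).trans (by simp [G])
  have hLε : 24 / ε ≤ (L : ℝ) := (Nat.le_ceil _).trans (by simp [L])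
  have hG0 : (0 : ℝ) < G := by positivity
  have hL0 : (0 : ℝ) < L := by positivity
  set ξ := θ' / (8 * G) with hξ
  have hξ0 : 0 < ξ := by positivity
  set κ := θ' * ε / (32 * G) with hκ
  have hκ0 : 0 < κ := by positivity
  set η := min (min (ε / 32) (ξ / (80 * L))) κ with hη
  set δ := min (min (ε / 32) (θ' / 20)) (ξ / 12) with hδ
  have hη0 : 0 < η := lt_min (lt_min (by positivity) (by positivity)) hκ0
  have hδ0 : 0 < δ := lt_min (lt_min (by positivity) (by positivity)) (by positivity)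
  obtain ⟨N₁, hcost⟩ := good_rows_rare L δ hδ0
  obtain ⟨N₂, hext⟩ := rich_extract ε hε
  obtain ⟨N₃, hnear⟩ := near_family η hη0
  obtain ⟨N₄, hN₄2, hsize⟩ := rare_size δ (40 * L) hδ0
  obtain ⟨N₅, hN₅⟩ := exists_nat_ge (max (max (32 / ε) (8 / κ)) (max (G : ℝ) (1 / ξ)))
  refine ⟨max (max N₁ N₂) (max N₃ (max N₄ N₅)), fun ι _ _ hN => ?_⟩
  simp only [max_le_iff] at hN hN₅
  set m := Fintype.card ι with hmdef
  obtain ⟨D, hD, hDδ, hDPr⟩ := hcost ι hN.1.1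
  obtain ⟨F, hFc, hF⟩ := hnear ι hN.2.1
  obtain ⟨hLm, hlog, hbud⟩ := hsize m hN.2.2.1
  have hmN : (N₅ : ℝ) ≤ m := by exact_mod_cast hN.2.2.2
  have hm0 : (0 : ℝ) ≤ m := Nat.cast_nonneg _
  obtain ⟨part, hpart⟩ := exists_blocks (ι := ι) (G := G) (Nat.succ_pos _)
  set c := ⌊θ' * m / G⌋₊
  set e := ⌊η * (m : ℝ)⌋₊
  set a := ⌈ε / 8 * (m : ℝ)⌉₊
  have hcf : (c : ℝ) ≤ θ' * m / G := Nat.floor_le (by positivity)
  have hef : (e : ℝ) ≤ η * m := Nat.floor_le (by positivity)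
  let blk : Fin G → Finset ι := fun g => univ.filter fun l => part l = g
  let idx : Finset ((Fin G × Submodule ℤ (ι → ℤ)) × Finset ι) :=
    ((univ ×ˢ F) ×ˢ univ).filter fun q =>
      c ≤ (blk q.1.1).card ∧ q.2 ⊆ (blk q.1.1)ᶜ ∧ a ≤ q.2.card
  refine (Pr_mono (R := fun ω => ∃ q ∈ idx, ∀ i ∈ q.2,
    GoodCheap L D ((blk q.1.1).card + e - c) (symM ℤ ω) q.1.2 (blk q.1.1) i) ?_).trans
    ((Pr_exists _ _).trans ?_)
  · rintro ω ⟨hdet, T, w, hker, hT, hpts⟩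
    obtain ⟨r, Z, hZ, hr, hZdet, hZT⟩ := hext ι hN.1.2 T w hpts
    obtain ⟨Λ, hΛF, hrk, hsup, hgΛ, hgsup⟩ := hF r Z hZ hZdet
    obtain ⟨g, hcg, A, hA, haA, hgood⟩ := rare_case (a := a) hθ0 (min_le_right _ _) hε hη0.le hδ0
      (Nat.succ_pos _) (Nat.succ_pos _) hGε hLε ((min_le_left _ _).trans (min_le_left _ _))
      ((min_le_left _ _).trans (min_le_left _ _)) ((min_le_left _ _).trans (min_le_right _ _))
      (by
        have h1 : η ≤ ξ / (80 * L) := (min_le_left _ _).trans (min_le_right _ _)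
        have h2 : δ ≤ ξ / 12 := min_le_right _ _
        rw [le_div_iff₀ (by positivity)] at h1
        rw [← hξ]
        linarith)
      (isSign_symM ω) hdet (le_trans hN₄2 hN.2.2.1) hcf hef (fun n hn => Nat.le_floor hn)
      (Nat.ceil_lt_add_one (by positivity)).le (hN₅.1.1.trans hmN) hLm hlog hbud hD hDδ part
      hpart hker ((mul_le_mul_of_nonneg_right (min_le_left _ _) hm0).trans hT) hZ hr hZdet hZT
      hrk hsup hgΛ hgsup
    exact ⟨((g, Λ), A), mem_filter.2 ⟨mem_product.2 ⟨mem_product.2 ⟨mem_univ _, hΛF⟩, mem_univ _⟩,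
      hcg, hA, haA⟩, hgood⟩
  refine (sum_le_sum (g := fun _ => (2 : ℝ) ^ (-(2 * κ * (m : ℝ) ^ 2))) fun q hq => ?_).trans ?_
  · simp only [idx, mem_filter] at hq
    refine (hDPr q.1.2 (blk q.1.1) q.2 _ hq.2.2.1).trans
      (Real.rpow_le_rpow_of_exponent_le (by norm_num) ?_)
    rw [Nat.cast_sub (le_trans hq.2.1 (Nat.le_add_right _ _)), Nat.cast_add]
    have hcl : θ' * m / G < c + 1 := Nat.lt_floor_add_one _
    have h1 : η * m + δ * m + 1 ≤ θ' * m / (2 * G) := by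
      have e1 : θ' * m / (2 * G) = 4 * ξ * m := by rw [hξ]; field_simp; ring
      have h2 : η ≤ ξ := ((min_le_left _ _).trans (min_le_right _ _)).trans
        (div_le_self hξ0.le (by
          have : (1 : ℝ) ≤ L := by exact_mod_cast (Nat.succ_pos _ : 0 < L)
          linarith))
      have h3 : δ ≤ ξ := (min_le_right _ _).trans (by linarith)
      have h4 : 1 ≤ ξ * (m : ℝ) := by
        have := hN₅.2.2.trans hmN
        rw [div_le_iff₀ hξ0] at this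
        linarith
      rw [e1]
      nlinarith [mul_le_mul_of_nonneg_right h2 hm0, mul_le_mul_of_nonneg_right h3 hm0]
    have h2 : (e : ℝ) - c + δ * m ≤ -(θ' * m / (2 * G)) := by
      have e2 : θ' * m / G = 2 * (θ' * m / (2 * G)) := by field_simp
      linarith
    have h3 : ε / 8 * m ≤ (q.2.card : ℝ) := (Nat.le_ceil _).trans (Nat.cast_le.2 hq.2.2.2)
    have e3 : θ' * m / (2 * G) * (ε / 8 * m) = 2 * κ * (m : ℝ) ^ 2 := by
      rw [hκ]; field_simp; ring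
    have h4 := mul_le_mul_of_nonneg_left h3 (show (0 : ℝ) ≤ θ' * m / (2 * G) by positivity)
    have h5 := mul_le_mul_of_nonneg_right h2 (Nat.cast_nonneg (α := ℝ) q.2.card)
    linarith
  rw [sum_const, nsmul_eq_mul]
  have hidx : (idx.card : ℝ) ≤ G * F.card * (2 : ℝ) ^ (m : ℝ) := by
    have := card_le_card (filter_subset (fun q : (Fin G × Submodule ℤ (ι → ℤ)) × Finset ι =>
      c ≤ (blk q.1.1).card ∧ q.2 ⊆ (blk q.1.1)ᶜ ∧ a ≤ q.2.card) ((univ ×ˢ F) ×ˢ univ))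
    rw [card_product, card_product, card_univ, Fintype.card_fin, card_univ,
      Fintype.card_finset] at this
    rw [Real.rpow_natCast]
    exact_mod_cast this
  refine (mul_le_mul_of_nonneg_right hidx (by positivity)).trans
    (rare_union_le ?_ (min_le_right _ _) ?_ hFc (Nat.cast_nonneg _))
  · have := hN₅.1.2.trans hmN
    rw [div_le_iff₀ hκ0] at this
    linarith
  · rw [Real.rpow_natCast]
    refine (hN₅.2.1.trans hmN).trans ?_
    exact_mod_cast (Nat.lt_two_pow_self (n := m)).le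

/-- The same bound with the event written out. -/
theorem many_points_rare (θ ε : ℝ) (hθ : 0 < θ) (hε : 0 < ε) :
    ∃ N : ℕ, ∀ (ι : Type) [Fintype ι] [DecidableEq ι], N ≤ Fintype.card ι →
      Pr (fun ω : Sym2 ι → Bool => (symM ℤ ω).det ≠ 0 ∧ ∃ (T : Finset ℕ) (w : ℕ → ι → ℤ),
        θ * Fintype.card ι ≤ T.card ∧
        (∀ p ∈ T, p.Prime ∧ (Fintype.card ι : ℝ) ^ (9 / 10 : ℝ) < p ∧ (∃ i, ¬ (p : ℤ) ∣ w p i) ∧
          ∀ i, (p : ℤ) ∣ (symM ℤ ω).mulVec (w p) i) ∧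
        (2 : ℝ) ^ (ε * Fintype.card ι) <
          (Nat.card {x : ι → Bool // ∀ p ∈ T, (p : ℤ) ∣ signVec x ⬝ᵥ w p} : ℝ)) ≤
        (2 : ℝ) ^ (-2 * (Fintype.card ι : ℝ)) := by
  obtain ⟨N, h⟩ := bad_rare θ ε hθ hε
  refine ⟨N, fun ι _ _ hN => le_trans (Pr_mono fun ω hω => ?_) (h ι hN)⟩
  obtain ⟨hd, T, w, h1, h2, h3⟩ := hω
  exact ⟨hd, T, w, h2, h1, h3⟩

end Vale.Agent.P160R.Five
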