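import Vale.Agent.P160R.Five.Ratio

/-!
# Submodularity and duality for Gram determinants
-/

namespace Vale.Agent.P160R.Five

open Matrix Module

set_option linter.unusedSectionVars false
set_option linter.unusedFintypeInType false
set_option linter.unusedDecidableInType false

variable {ι κ μ : Type} [Fintype ι] [DecidableEq ι] [Fintype κ] [DecidableEq κ] [Fintype μ]
  [DecidableEq μ]

/-- Adding a lattice whose kernel part is already present. -/
lemma gdet_sup_le {G : Matrix ι ι ℝ} (hG : G.PosDef) (F : Matrix μ ι ℤ)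
    {V U Y : Submodule ℤ (ι → ℤ)} (hV : V ≤ U) (hY : Y ≤ U)
    (hspan : ∀ u ∈ U, ∃ v ∈ V, ∃ y ∈ Y, u = v + y)
    (hYV : Y ⊓ kerL F ≤ V)
    (hdisj : ∀ v ∈ V, ∀ y ∈ Y, F.mulVec v = F.mulVec y → F.mulVec y = 0) :
    gdet G U * gdet G (Y ⊓ kerL F) ≤ gdet G V * gdet G Y := by
  obtain ⟨c, hcY, hFc, hbas⟩ := exists_adapted Y F
  set n := basisMat (Y ⊓ kerL F)
  set A := basisMat V
  have hA := isBasisMat_basisMat V
  have hn := isBasisMat_basisMat (Y ⊓ kerL F)
  have hU : IsBasisMat (fromCols A c) U := by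
    refine ⟨fun a b h => ?_, ?_⟩
    · rw [← sub_eq_zero, ← mulVec_sub, fromCols_mulVec] at h
      set w := a - b
      have h1 : F.mulVec (c.mulVec (w ∘ Sum.inr)) = 0 := by
        refine hdisj _ (V.neg_mem (hA.mem (w ∘ Sum.inl))) _ (hcY _) ?_
        rw [eq_neg_of_add_eq_zero_right h]
      rw [mulVec_mulVec] at h1
      have h2 : w ∘ Sum.inr = 0 := hFc.1 (by rw [h1, mulVec_zero])
      rw [h2, mulVec_zero, add_zero] at h
      have h3 : w ∘ Sum.inl = 0 := hA.1 (by rw [h, mulVec_zero])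
      rw [← sub_eq_zero]
      funext t
      rcases t with t | t
      · exact congrFun h3 t
      · exact congrFun h2 t
    · refine le_antisymm ?_ fun u hu => ?_
      · rintro _ ⟨a, rfl⟩
        rw [mulVecLin_apply, fromCols_mulVec]
        exact U.add_mem (hV (hA.mem _)) (hY (hcY _))
      · obtain ⟨v, hv, y, hy, rfl⟩ := hspan u hu
        rw [← hbas.2] at hy
        obtain ⟨a, rfl⟩ := hy
        have h1 : v + n.mulVec (a ∘ Sum.inl) ∈ V := V.add_mem hv (hYV (hn.mem _))
        rw [← hA.2] at h1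
        obtain ⟨b, hb⟩ := h1
        refine ⟨Sum.elim b (a ∘ Sum.inr), ?_⟩
        rw [mulVecLin_apply] at hb ⊢
        rw [mulVecLin_apply, fromCols_mulVec_sumElim, fromCols_mulVec, hb]
        abel
  obtain ⟨X, hX⟩ := hA.exists_coeff n fun t => hYV (hn.col_mem t)
  have hiU := toR_injective hU.1
  have hiY := toR_injective hbas.1
  rw [toR_fromCols] at hiU hiY
  have hle := sform_mono hG hiU hiY (toR X) (by rw [hX, toR_mul])
  rw [gdet_fromCols hG hU, gdet_fromCols hG hbas, gdet_eq G hA, gdet_eq G hn]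
  have h1 := (gram_posDef hG (injective_inl hiU)).det_pos.le
  have h2 := (gram_posDef hG (injective_inl hiY)).det_pos.le
  nlinarith [mul_le_mul_of_nonneg_left hle (mul_nonneg h1 h2)]

/-- Submodularity. -/
theorem gdet_submodular {G : Matrix ι ι ℝ} (hG : G.PosDef) (X Y : Submodule ℤ (ι → ℤ)) :
    gdet G (X ⊔ Y) * gdet G (X ⊓ Y) ≤ gdet G X * gdet G Y := by
  set I := X ⊓ Y with hI
  set K := kerL (satMat I) with hK
  set Δ := ((basisMat I)ᵀ * basisMat I).det with hΔ
  have hΔ0 : Δ ≠ 0 := gram_det_ne_zero I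
  have hIK : I ≤ K := le_ker_satMat I
  set F := satMat I
  set X₀ := X ⊓ K
  set Y₀ := Y ⊓ K
  set U₀ := X₀ ⊔ Y₀
  have hdisj : ∀ x ∈ X, ∀ y ∈ Y, F.mulVec x = F.mulVec y → F.mulVec y = 0 := by
    intro x hx y hy h
    have hk : x - y ∈ K := by rw [hK, mem_kerL, mulVec_sub, h, sub_self]
    have hi : Δ • (x - y) ∈ I := smul_mem_of_ker hk
    have hy' : Δ • y ∈ I := by
      refine ⟨?_, Y.smul_mem _ hy⟩
      have := X.sub_mem (X.smul_mem Δ hx) hi.1
      simpa [smul_sub] using this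
    have h2 := hIK hy'
    rw [hK, mem_kerL, mulVec_smul] at h2
    exact (smul_eq_zero.1 h2).resolve_left hΔ0
  -- first add `X`, then `Y`
  have h1 : gdet G (U₀ ⊔ X) * gdet G X₀ ≤ gdet G U₀ * gdet G X := by
    refine gdet_sup_le hG F le_sup_left le_sup_right (fun u hu => ?_)
      (le_sup_left : X₀ ≤ U₀) fun v hv y _ h => ?_
    · obtain ⟨v, hv, y, hy, rfl⟩ := Submodule.mem_sup.1 hu
      exact ⟨v, hv, y, hy, rfl⟩
    · have : v ∈ K := sup_le (inf_le_right : X₀ ≤ K) (inf_le_right : Y₀ ≤ K) hv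
      rw [← h]; exact this
  have hW : U₀ ⊔ X = X ⊔ Y₀ := by
    refine le_antisymm (sup_le (sup_le (inf_le_left.trans le_sup_left) le_sup_right) le_sup_left) ?_
    exact sup_le le_sup_right (le_sup_right.trans le_sup_left)
  have h2 : gdet G (X ⊔ Y) * gdet G Y₀ ≤ gdet G (X ⊔ Y₀) * gdet G Y := by
    refine gdet_sup_le hG F (sup_le le_sup_left (inf_le_left.trans le_sup_right)) le_sup_right
      (fun u hu => ?_) (le_sup_right : Y₀ ≤ X ⊔ Y₀) fun v hv y hy h => ?_
    · obtain ⟨v, hv, y, hy, rfl⟩ := Submodule.mem_sup.1 hu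
      exact ⟨v, Submodule.mem_sup_left hv, y, hy, rfl⟩
    · obtain ⟨x, hx, z, hz, rfl⟩ := Submodule.mem_sup.1 hv
      refine hdisj x hx y hy ?_
      rw [← h, mulVec_add, show F.mulVec z = 0 from hz.2, add_zero]
  rw [hW] at h1
  -- the four kernel parts have equal rank
  have hI0 : I ≤ X₀ := le_inf inf_le_left hIK
  have hI0' : I ≤ Y₀ := le_inf inf_le_right hIK
  have hrX := finrank_eq_of_smul_le hI0 hΔ0 fun x hx => smul_mem_of_ker hx.2
  have hrY := finrank_eq_of_smul_le (le_sup_right : Y₀ ≤ U₀) hΔ0 fun x hx =>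
    hI0' (smul_mem_of_ker ((sup_le (inf_le_right : X₀ ≤ K) (inf_le_right : Y₀ ≤ K)) hx))
  have e1 := gdet_eq_index G hI0 hrX
  have e2 := gdet_eq_index G (le_sup_right : Y₀ ≤ U₀) hrY
  have hidx : I.toAddSubgroup.relIndex X₀.toAddSubgroup =
      Y₀.toAddSubgroup.relIndex U₀.toAddSubgroup := by
    have : I = X₀ ⊓ Y₀ := le_antisymm (le_inf hI0 hI0') (inf_le_inf inf_le_left inf_le_left)
    have e1 : (X₀ ⊓ Y₀).toAddSubgroup = X₀.toAddSubgroup ⊓ Y₀.toAddSubgroup := rfl
    have e2 : U₀.toAddSubgroup = X₀.toAddSubgroup ⊔ Y₀.toAddSubgroup :=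
      map_sup AddSubgroup.toIntSubmodule.symm X₀ Y₀
    rw [this, e1, AddSubgroup.inf_relIndex_left, e2, AddSubgroup.relIndex_sup_right]
  rw [hidx] at e1
  have pos := fun U => gdet_pos hG U
  have h3 : gdet G (X ⊔ Y) * gdet G Y₀ * gdet G X₀ ≤ gdet G U₀ * gdet G X * gdet G Y :=
    calc gdet G (X ⊔ Y) * gdet G Y₀ * gdet G X₀ ≤ gdet G (X ⊔ Y₀) * gdet G Y * gdet G X₀ :=
          mul_le_mul_of_nonneg_right h2 (pos _).le
      _ = gdet G (X ⊔ Y₀) * gdet G X₀ * gdet G Y := by ring
      _ ≤ _ := mul_le_mul_of_nonneg_right h1 (pos _).le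
  refine le_of_mul_le_mul_left ?_ (pos U₀)
  refine le_of_eq_of_le ?_ (h3.trans_eq (mul_assoc _ _ _))
  rw [hI] at e1
  rw [e1, e2]
  ring

/-- Duality: a lattice of linear forms and its common kernel. -/
theorem gdet_dual {r : ℕ} (G : Matrix ι ι ℤ) (hG : (toR G).PosDef) (N : Matrix (Fin r) ι ℤ)
    (hN : Function.Injective (toQ Nᵀ).mulVec) :
    gdet (toR G) (kerL N) ≤ (toR N * (toR G)⁻¹ * (toR N)ᵀ).det * (toR G).det := by
  obtain ⟨c, -, -, hbas⟩ := exists_adapted (⊤ : Submodule ℤ (ι → ℤ)) N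
  rw [← top_inf_eq (kerL N)]
  set A := basisMat (⊤ ⊓ kerL N) with hA
  set GR := toR G with hGR
  set R := toR N * GR⁻¹ * (toR N)ᵀ with hR
  have hRpd : R.PosDef := by
    have := gram_posDef hG.inv (toR_mulVec_injective Nᵀ hN)
    simpa [toR, transpose_map, hR] using this
  set T := GR⁻¹ * (toR N)ᵀ with hTdef
  have hAk : N * A = 0 := Matrix.ext fun i t =>
    congrFun ((isBasisMat_basisMat (⊤ ⊓ kerL N)).col_mem t).2 i
  have hunit : IsUnit GR.det := hG.det_pos.ne'.isUnit
  have hGT : GR * T = (toR N)ᵀ := by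
    rw [hTdef, ← Matrix.mul_assoc, mul_nonsing_inv _ hunit, Matrix.one_mul]
  have hNA : toR N * toR A = 0 := by rw [← toR_mul, hAk]; simp [toR]
  have hAT : (toR A)ᵀ * GR * T = 0 := by
    rw [Matrix.mul_assoc, hGT, ← transpose_mul, hNA, transpose_zero]
  have hGt : GRᵀ = GR := by simpa using hG.1.eq
  have hTT : Tᵀ * GR * T = R := by
    rw [Matrix.mul_assoc, hGT, hTdef, transpose_mul, transpose_transpose, transpose_nonsing_inv,
      hGt]
  -- every vector is an integral combination of the adapted basis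
  have hsurj : ∀ x : ι → ℤ, ∃ a, (fromCols A c).mulVec a = x := fun x => by
    have : x ∈ LinearMap.range (fromCols A c).mulVecLin := by rw [hbas.2]; trivial
    obtain ⟨a, ha⟩ := this
    exact ⟨a, ha⟩
  choose a ha using hsurj
  set M := Matrix.of fun t i => a (Pi.single i 1) t with hMdef
  have hM : fromCols A c * M = 1 := by
    ext i l
    have := congrFun (ha (Pi.single l 1)) i
    simp only [mulVec, dotProduct] at this
    simpa [Matrix.mul_apply, hMdef, Matrix.one_apply, Pi.single_apply] using this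
  set p := (toR M * T).submatrix Sum.inl id with hp
  set q := (toR M * T).submatrix Sum.inr id with hq
  have hT : T = toR A * p + toR c * q := by
    have h2 : toR M * T = fromRows p q := by ext (t | t) l <;> rfl
    have h1 : T = toR (fromCols A c) * (toR M * T) := by
      rw [← Matrix.mul_assoc, ← toR_mul, hM]
      simp [toR]
    rwa [toR_fromCols, h2, fromCols_mul_fromRows] at h1
  have hR' : R = toR (N * c) * q := by
    rw [hR, Matrix.mul_assoc, ← hTdef, hT, Matrix.mul_add, ← Matrix.mul_assoc, ← Matrix.mul_assoc,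
      hNA, Matrix.zero_mul, zero_add, toR_mul]
  have hcard : finrank ℤ (mapL N ⊤) = r := by
    refine le_antisymm ((Submodule.finrank_le _).trans (by simp)) ?_
    have h1 : R.rank ≤ finrank ℤ (mapL N ⊤) := by
      rw [hR']
      exact (Matrix.rank_mul_le_right _ _).trans ((Matrix.rank_le_card_height _).trans (by simp))
    rwa [rank_of_isUnit _ hRpd.isUnit, Fintype.card_fin] at h1
  -- change to a square frame
  set e := (finCongr hcard).symm
  set Nc := (N * c).submatrix id e with hNc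
  set q' := q.submatrix e id with hq'
  have hj : R.det = (Nc.det : ℝ) * q'.det := by
    rw [show ((Nc.det : ℤ) : ℝ) = (toR Nc).det from (Int.castRingHom ℝ).map_det Nc, ← det_mul, hR']
    congr 1
    rw [show toR Nc = (toR (N * c)).submatrix id e from rfl, hq', submatrix_mul_equiv,
      submatrix_id_id]
  set T' := T.submatrix id e.symm with hT'
  set Q := fromBlocks (1 : Matrix (Fin (finrank ℤ (⊤ ⊓ kerL N : Submodule ℤ (ι → ℤ))))
    (Fin (finrank ℤ (⊤ ⊓ kerL N : Submodule ℤ (ι → ℤ)))) ℝ) (p.submatrix id e.symm) 0 (q.submatrix id e.symm) with hQ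
  have hX : fromCols (toR A) T' = fromCols (toR A) (toR c) * Q := by
    rw [hQ, fromCols_mul_fromBlocks, Matrix.mul_one, Matrix.mul_zero, add_zero, hT', hT]
    congr 1
  have hQd : Q.det = q'.det := by
    rw [hQ, det_fromBlocks_zero₂₁, det_one, one_mul, hq',
      ← det_submatrix_equiv_self e (q.submatrix id e.symm)]
    simp [submatrix_submatrix]
  have hfull : ((fromCols (toR A) (toR c))ᵀ * GR * fromCols (toR A) (toR c)).det = GR.det := by
    rw [← toR_fromCols, ← gdet_eq GR hbas, gdet_eq GR (A := (1 : Matrix ι ι ℤ))]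
    · simp [toR]
    · refine ⟨fun x y h => by simpa using h, eq_top_iff.2 fun x _ => ⟨x, by simp⟩⟩
  have hlhs : ((fromCols (toR A) T')ᵀ * GR * fromCols (toR A) T').det =
      gdet GR (⊤ ⊓ kerL N) * R.det := by
    have h1 : (toR A)ᵀ * GR * T' = 0 := by
      have : (toR A)ᵀ * GR * T' = ((toR A)ᵀ * GR * T).submatrix id e.symm := by
        ext x y; simp [Matrix.mul_apply, hT']
      rw [this, hAT]; rfl
    have h2 : T'ᵀ * GR * T' = (Tᵀ * GR * T).submatrix e.symm e.symm := by
      ext x y; simp [Matrix.mul_apply, hT']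
    rw [gram_fromCols GR hG.1, h1, conjTranspose_zero, det_fromBlocks_zero₂₁, h2, hTT,
      det_submatrix_equiv_self, gdet]
  have hrhs : ((fromCols (toR A) T')ᵀ * GR * fromCols (toR A) T').det = q'.det ^ 2 * GR.det := by
    rw [hX, transpose_mul]
    simp only [Matrix.mul_assoc]
    rw [det_mul, ← Matrix.mul_assoc GR, ← Matrix.mul_assoc (fromCols (toR A) (toR c))ᵀ, det_mul,
      ← Matrix.mul_assoc (fromCols (toR A) (toR c))ᵀ GR, hfull, det_transpose, hQd]
    ring
  have key : gdet GR (⊤ ⊓ kerL N) * R.det = q'.det ^ 2 * GR.det := hlhs.symm.trans hrhs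
  have hRpos := hRpd.det_pos
  have hj1 : (1 : ℝ) ≤ (Nc.det : ℝ) ^ 2 := by
    have hne : Nc.det ≠ 0 := fun h => by simp [hj, h] at hRpos
    exact_mod_cast (sq_pos_iff.2 hne : 0 < Nc.det ^ 2)
  refine le_of_mul_le_mul_right ?_ hRpos
  calc gdet GR (⊤ ⊓ kerL N) * R.det ≤ (Nc.det : ℝ) ^ 2 * (gdet GR (⊤ ⊓ kerL N) * R.det) :=
        le_mul_of_one_le_left (mul_pos (gdet_pos hG _) hRpos).le hj1
    _ = _ := by rw [key, hj]; ring

/-- The common kernel of independent forms. -/
theorem finrank_kerL {r : ℕ} (N : Matrix (Fin r) ι ℤ)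
    (hN : Function.Injective (toQ Nᵀ).mulVec) :
    finrank ℤ (kerL N) + r = Fintype.card ι := by
  have h := finrank_split (⊤ : Submodule ℤ (ι → ℤ)) N
  rw [finrank_top, finrank_fintype_fun_eq_card, top_inf_eq] at h
  have h1 : finrank ℤ (mapL N ⊤) = r := by
    refine le_antisymm ((Submodule.finrank_le _).trans (by simp)) ?_
    have h2 : finrank ℤ (mapL (N * Nᵀ) ⊤) ≤ finrank ℤ (mapL N ⊤) := by
      refine Submodule.finrank_mono ?_
      rintro _ ⟨x, -, rfl⟩
      exact ⟨Nᵀ.mulVec x, trivial, mulVec_mulVec x N Nᵀ⟩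
    have h3 : IsBasisMat (N * Nᵀ) (mapL (N * Nᵀ) ⊤) := by
      refine ⟨fun a b hab => ?_, by simp [mapL, Submodule.map_top]⟩
      have hi : Function.Injective Nᵀ.mulVec := fun x y hxy => by
        have := hN (a₁ := fun l => (x l : ℚ)) (a₂ := fun l => (y l : ℚ)) (by
          funext i
          have := congrArg (fun z : ℤ => (z : ℚ)) (congrFun hxy i)
          simpa [toQ, mulVec, dotProduct] using this)
        exact funext fun l => Int.cast_injective (congrFun this l)
      refine hi ?_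
      rw [← sub_eq_zero, ← mulVec_sub]
      refine dotProduct_self_eq_zero.1 ?_
      rw [dotProduct_mulVec, vecMul_transpose, mulVec_mulVec, mulVec_sub, hab, sub_self,
        zero_dotProduct]
    have h4 := h3.card_eq
    rw [Fintype.card_fin] at h4
    omega
  omega

/-- Rank is modular. -/
theorem finrank_sup_add_inf (X Y : Submodule ℤ (ι → ℤ)) :
    finrank ℤ (X ⊔ Y : Submodule ℤ (ι → ℤ)) + finrank ℤ (X ⊓ Y : Submodule ℤ (ι → ℤ)) =
      finrank ℤ X + finrank ℤ Y := by
  have h := Submodule.rank_sup_add_rank_inf_eq X Y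
  simp only [← Module.finrank_eq_rank] at h
  exact_mod_cast h

end Vale.Agent.P160R.Five
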